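import Crest.Prelude.Def_EditDistance

/-!
# Row 210 (S0323): edit distance does not embed into `ℓ¹` with distortion `exp (c √(log d log log d))`

Definitions and interface `Prop`s.  Paper proof: `results.notes` of row 210.

Words are `List Bool`.  A gadget is a finite family of functions `ℤ → words` ("phase ↦ word").
-/

set_option autoImplicit false

namespace Crest.Agent.H7

open Crest.GeometryTopology.EditDistance
open scoped BigOperators

/-! ### Kernels of squared-`L²` type -/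

/-- `ρ` satisfies every linear inequality satisfied by all squared differences `(g i - g j)^2`. -/
def Neg {α : Type} (ρ : α → α → ℝ) : Prop :=
  ∀ (ι : Type) [Fintype ι] (c : ι → ι → ℝ),
    (∀ g : ι → ℝ, 0 ≤ ∑ i, ∑ j, c i j * (g i - g j) ^ 2) →
    ∀ x : ι → α, 0 ≤ ∑ i, ∑ j, c i j * ρ (x i) (x j)

/-- `ρ` is `κ`-Lipschitz for the sup (over the phases) of the edit distance, on words of length `B`. -/
def Lip (B : ℕ) (κ : ℝ) (ρ : (ℤ → List Bool) → (ℤ → List Bool) → ℝ) : Prop :=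
  ∀ w w' : ℤ → List Bool, (∀ θ, (w θ).length = B) → (∀ θ, (w' θ).length = B) →
    ∀ n : ℕ, (∀ θ, editDist (w θ) (w' θ) ≤ n) → ρ w w' ≤ κ * n

/-! ### Gadgets -/

/-- a gadget: environment `e : E` and phase `θ : ℤ` give a word. -/
structure Gadget where
  E : Type
  [fin : Fintype E]
  [ne : Nonempty E]
  V : E → ℤ → List Bool

attribute [instance] Gadget.fin Gadget.ne

/-- all words have length `B` -/
def Len (G : Gadget) (B : ℕ) : Prop := ∀ e θ, (G.V e θ).length = B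

/-- periodic of period `q` in the phase -/
def Per (G : Gadget) (q : ℕ) : Prop := ∀ e θ, G.V e (θ + q) = G.V e θ

/-- Poincaré inequality: phase shifts cost at most `κ b` on average. -/
def Poin (G : Gadget) (B : ℕ) (b : ℝ) : Prop :=
  ∀ (κ : ℝ) (ρ : (ℤ → List Bool) → (ℤ → List Bool) → ℝ), 0 ≤ κ → Neg ρ → Lip B κ ρ →
    ∀ η : ℤ, ∑ e, ρ (G.V e) (fun θ => G.V e (η + θ)) ≤ (Fintype.card G.E : ℝ) * (κ * b)

/-- the word made of `N` cells, each cell made of `m` blocks -/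
def joinW (N : ℕ) {m : ℕ} (X : Fin m → ℤ → List Bool) (u c : Fin m → ℤ) (θ : ℤ) : List Bool :=
  (List.range N).flatMap fun i : ℕ =>
    (List.finRange m).flatMap fun a : Fin m => X a ((i : ℤ) + u a + c a * θ)

/-- the next level gadget: `q' a` is the modulus of `G a`, `c a` the speed of label `a`. -/
def stepG (N : ℕ) {m : ℕ} (q' : Fin m → ℕ) [∀ a, NeZero (q' a)] (c : Fin m → ℤ)
    (G : Fin m → Gadget) : Gadget where
  E := ∀ a, (G a).E × ZMod (q' a)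
  V e θ := joinW N (fun a => (G a).V (e a).1) (fun a => ((e a).2.val : ℤ)) c θ

/-! ### Distances between factors -/

/-- every factor of `x` of length at least `B/3` is at edit distance at least `k` from every
factor of `y`. -/
def Far (B : ℕ) (k : ℝ) (x y : List Bool) : Prop :=
  ∀ x' y' : List Bool, x' <:+: x → y' <:+: y → B ≤ 3 * x'.length → k ≤ (editDist x' y' : ℝ)

/-- two gadgets are separated -/
def Sep (B : ℕ) (k : ℝ) (G G' : Gadget) : Prop :=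
  ∀ e e' θ θ', Far B k (G.V e θ) (G'.V e' θ')

/-- different phases of one gadget are separated -/
def Self (B : ℕ) (k : ℝ) (q : ℕ) (G : Gadget) : Prop :=
  ∀ e θ θ', ¬ (θ ≡ θ' [ZMOD q]) → Far B k (G.V e θ) (G.V e θ')

/-! ### Interface -/

/-- (T1) basic facts on the edit distance -/
structure EDBasic : Prop where
  self : ∀ x : List Bool, editDist x x = 0
  symm : ∀ x y : List Bool, editDist x y = editDist y x
  pos : ∀ x y : List Bool, x ≠ y → 1 ≤ editDist x y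
  tri : ∀ x y z : List Bool, editDist x z ≤ editDist x y + editDist y z
  append : ∀ x x' y y' : List Bool,
    editDist (x ++ y) (x' ++ y') ≤ editDist x x' + editDist y y'
  split : ∀ x y z : List Bool, ∃ z₁ z₂, z = z₁ ++ z₂ ∧
    editDist x z₁ + editDist y z₂ ≤ editDist (x ++ y) z
  length_le : ∀ x y : List Bool, y.length ≤ x.length + editDist x y
  le_length : ∀ x y : List Bool, x.length = y.length → editDist x y ≤ x.length
  shift : ∀ x y z : List Bool, editDist (x ++ y) (y ++ z) ≤ x.length + z.length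

/-- (T2) the Fourier inequality on a product of cyclic groups -/
def FourierIneq : Prop :=
  ∀ (m q : ℕ) (p : Fin m → ℕ) (q' : Fin m → ℕ) [∀ a, NeZero (q' a)], 0 < q →
    (∀ a, 0 < p a) → (∀ a, q' a = q * p a) →
    (∀ a, Nat.Coprime q (p a)) → (∀ a b, a ≠ b → Nat.Coprime (p a) (p b)) →
    ∀ (c : Fin m → ℤ), (∀ a, c a ≡ 1 [ZMOD q]) → (∀ a, c a ≡ 0 [ZMOD (p a)]) →
    ∀ (L T : ℕ), 0 < L → (∀ K : Finset (Fin m), K.card < L → q * ∏ a ∈ K, p a ≤ T) →
    ∀ (η : ℤ) (g : (∀ a, ZMod (q' a)) → ℝ),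
      ∑ u, (g u - g (u + fun a => ((c a * η : ℤ) : ZMod (q' a)))) ^ 2 ≤
        (T : ℝ) ^ 2 * ∑ u, (g u - g (u + 1)) ^ 2 +
        (2 / L : ℝ) * ∑ a, (1 / (q' a : ℝ)) * ∑ z : ZMod (q' a),
          ∑ u, (g u - g (u + Pi.single a z)) ^ 2

/-- (T3) the `ℓ¹` metric is of squared-`L²` type -/
def NegL1 : Prop :=
  ∀ (α : Type) (f : α → lp (fun _ : ℕ => ℝ) 1), Neg (fun x y => ‖f x - f y‖)

/-- (T4) explicit code: `2 ^ r` words of length `6 (2 r + 4)` without long common factors -/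
def BaseCode : Prop :=
  ∀ r : ℕ, ∃ code : ℕ → List Bool, (∀ k, (code k).length = 6 * (2 * r + 4)) ∧
    ∀ k k', k < 2 ^ r → k' < 2 ^ r → k ≠ k' → Far (6 * (2 * r + 4)) 1 (code k) (code k')

/-- (T5) polynomial bound for the `k`-th prime -/
def PrimeBound : Prop :=
  ∃ k₀ : ℕ, ∀ k : ℕ, k₀ ≤ k → Nat.nth Nat.Prime k ≤ k ^ 2

/-- (T6) one level of the Poincaré recursion -/
def PoinStep : Prop :=
  ∀ (m N q : ℕ) (p : Fin m → ℕ) (q' : Fin m → ℕ) [∀ a, NeZero (q' a)], 0 < q →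
    (∀ a, 0 < p a) → (∀ a, q' a = q * p a) →
    (∀ a, Nat.Coprime q (p a)) → (∀ a b, a ≠ b → Nat.Coprime (p a) (p b)) →
    ∀ (c : Fin m → ℤ), (∀ a, c a ≡ 1 [ZMOD q]) → (∀ a, c a ≡ 0 [ZMOD (p a)]) →
    ∀ (L T : ℕ), 0 < L → (∀ K : Finset (Fin m), K.card < L → q * ∏ a ∈ K, p a ≤ T) →
    ∀ (G : Fin m → Gadget) (B : ℕ) (b : ℝ), (∀ a, Len (G a) B) → (∀ a, Per (G a) (q' a)) →
      (∀ a, Poin (G a) B b) →
      Poin (stepG N q' c G) (N * (m * B)) (T ^ 2 * (2 * (m * B)) + 2 / L * (m * (N * b)))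

/-- (T7a) the combinatorial core of the lower bound for the edit distance.  Blocks `X i a`,
`Y i a` of length `B`; `R` = "same block".  -/
def FarCore : Prop :=
  ∀ (N m B : ℕ) (k : ℝ), 24 ≤ N → 0 < m → 0 < B → 0 < k → k ≤ B →
    ∀ (X Y : ℕ → Fin m → List Bool), (∀ i a, (X i a).length = B) → (∀ i a, (Y i a).length = B) →
    ∀ (R : ℕ → Fin m → ℕ → Fin m → Prop),
      (∀ i a i' a', i < N → i' < N → ¬ R i a i' a' → Far B k (X i a) (Y i' a')) →
    ∀ x' y' : List Bool,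
      x' <:+: ((List.range N).flatMap fun i : ℕ => (List.finRange m).flatMap fun a => X i a) →
      y' <:+: ((List.range N).flatMap fun i : ℕ => (List.finRange m).flatMap fun a => Y i a) →
      N * (m * B) ≤ 3 * x'.length → (editDist x' y' : ℝ) < N * (m * k) / 64 →
      ∃ (i : ℕ) (S : Finset (Fin m)) (i' : Fin m → ℕ) (a' : Fin m → Fin m), i < N ∧
        (15 * m ≤ 16 * S.card) ∧ (∀ a ∈ S, i' a < N ∧ R i a (i' a) (a' a)) ∧
        (∀ a ∈ S, ∀ b ∈ S, 16 * ((i' a * m + a' a : ℕ) : ℤ) ≤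
          16 * ((i' b * m + a' b : ℕ) : ℤ) + 17 * m + 64)

/-- (T7b) separation, one level -/
def SepStep : Prop :=
  ∀ (N m B : ℕ) (k : ℝ), 24 ≤ N → 16 ≤ m → 0 < B → 0 < k → k ≤ B →
    ∀ (q' q'' : Fin m → ℕ) [∀ a, NeZero (q' a)] [∀ a, NeZero (q'' a)] (c c' : Fin m → ℤ)
      (G G' : Fin m → Gadget), (∀ a, Len (G a) B) → (∀ a, Len (G' a) B) →
      (∀ a b, Sep B k (G a) (G' b)) →
      Sep (N * (m * B)) (N * (m * k) / 64) (stepG N q' c G) (stepG N q'' c' G')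

/-- (T7c) separation of the phases of one gadget, one level -/
def SelfStep : Prop :=
  ∀ (N m B : ℕ) (k : ℝ), 24 ≤ N → 16 ≤ m → 0 < B → 0 < k → k ≤ B → N ^ 2 ≤ 2 ^ m →
    ∀ (q : ℕ) (p : Fin m → ℕ) (q' : Fin m → ℕ) [∀ a, NeZero (q' a)], 3 ≤ q →
    (∀ a, 2 ≤ p a) → (∀ a, q' a = q * p a) →
    (∀ a, Nat.Coprime q (p a)) → (∀ a b, a ≠ b → Nat.Coprime (p a) (p b)) →
    ∀ (c : Fin m → ℤ), (∀ a, c a ≡ 1 [ZMOD q]) → (∀ a, c a ≡ 0 [ZMOD (p a)]) →
    ∀ (G : Fin m → Gadget), (∀ a, Len (G a) B) →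
      (∀ a, Self B k (q' a) (G a)) → (∀ a b, a ≠ b → Sep B k (G a) (G b)) →
      Self (N * (m * B)) (N * (m * k) / 64) q (stepG N q' c G)

/-- (T8) existence of the top gadget for every large `L` : word length
`(L ^ (60 L) * (120 L ^ 2)) ^ L * B₀`, `B₀ = 6 (2 r + 4)`. -/
def TopGadget : Prop :=
  ∃ L₀ : ℕ, ∀ L : ℕ, L₀ ≤ L → ∃ (G : Gadget) (B : ℕ) (b k : ℝ), Len G B ∧
    (B : ℝ) ≤ (L : ℝ) ^ (62 * L ^ 2) ∧ Poin G B b ∧ Self B k 3 G ∧ 0 < b ∧ 0 < k ∧
    ((L : ℝ) / 256) ^ L / (L : ℝ) ^ 3 ≤ k / b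

/-- (T9) the distortion bound from one gadget -/
def DistBound : Prop :=
  ∀ (G : Gadget) (B : ℕ) (b k : ℝ), Len G B → Poin G B b → Self B k 3 G → 0 < b → 0 < k →
    ∀ (f : List Bool → lp (fun _ : ℕ => ℝ) 1) (s D : ℝ), 0 < s →
        (∀ x y : List Bool, x.length = B → y.length = B → x ≠ y →
          s * (editDist x y : ℝ) ≤ ‖f x - f y‖ ∧ ‖f x - f y‖ ≤ D * s * (editDist x y : ℝ)) →
        k / b ≤ D

/-- (T10) choice of `L` -/
def ChooseL : Prop :=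
  ∀ L₀ : ℕ, ∃ c : ℝ, 0 < c ∧ ∃ d₀ : ℕ, ∀ d : ℕ, d₀ ≤ d → ∃ L : ℕ, L₀ ≤ L ∧
    (L : ℝ) ^ (62 * L ^ 2) ≤ d ∧
    Real.exp (c * Real.sqrt (Real.log d * Real.log (Real.log d))) ≤
      ((L : ℝ) / 256) ^ L / (L : ℝ) ^ 3

end Crest.Agent.H7
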