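import Crest.Agent.H7.Defs

/-!
# (T1) basic facts on the edit distance
-/

set_option autoImplicit false

namespace Crest.Agent.H7

open Crest.GeometryTopology.EditDistance

namespace T1

/-- one-step relation -/
def Rel (u v : List Bool) : Prop := IsInsertion u v ∨ IsSubstitution u v

lemma adj_iff (u v : List Bool) : (editGraph Bool).Adj u v ↔ u ≠ v ∧ (Rel u v ∨ Rel v u) := by
  unfold editGraph Rel
  rw [SimpleGraph.fromRel_adj]

lemma subst_symm {u v : List Bool} (h : IsSubstitution u v) : IsSubstitution v u := by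
  obtain ⟨l, r, a, b, hab, hu, hv⟩ := h
  exact ⟨l, r, b, a, hab.symm, hv, hu⟩

lemma rel_append_right {u v : List Bool} (s : List Bool) (h : Rel u v) : Rel (u ++ s) (v ++ s) := by
  rcases h with ⟨l, r, a, hu, hv⟩ | ⟨l, r, a, b, hab, hu, hv⟩
  · exact Or.inl ⟨l, r ++ s, a, by simp [hu], by simp [hv]⟩
  · exact Or.inr ⟨l, r ++ s, a, b, hab, by simp [hu], by simp [hv]⟩

lemma rel_append_left {u v : List Bool} (s : List Bool) (h : Rel u v) : Rel (s ++ u) (s ++ v) := by
  rcases h with ⟨l, r, a, hu, hv⟩ | ⟨l, r, a, b, hab, hu, hv⟩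
  · exact Or.inl ⟨s ++ l, r, a, by simp [hu], by simp [hv]⟩
  · exact Or.inr ⟨s ++ l, r, a, b, hab, by simp [hu], by simp [hv]⟩

/-- appending on the right as a graph homomorphism -/
def homR (s : List Bool) : editGraph Bool →g editGraph Bool where
  toFun u := u ++ s
  map_rel' := by
    intro u v h
    rw [adj_iff] at h ⊢
    exact ⟨fun e => h.1 (List.append_cancel_right e),
      h.2.imp (rel_append_right s) (rel_append_right s)⟩

/-- appending on the left as a graph homomorphism -/
def homL (s : List Bool) : editGraph Bool →g editGraph Bool where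
  toFun u := s ++ u
  map_rel' := by
    intro u v h
    rw [adj_iff] at h ⊢
    exact ⟨fun e => h.1 (List.append_cancel_left e),
      h.2.imp (rel_append_left s) (rel_append_left s)⟩

lemma adj_cons (a : Bool) (x : List Bool) : (editGraph Bool).Adj (a :: x) x := by
  rw [adj_iff]
  refine ⟨fun e => ?_, Or.inr (Or.inl ⟨[], x, a, by simp, by simp⟩)⟩
  have := congrArg List.length e
  simp at this

lemma exists_walk_nil (x : List Bool) : ∃ p : (editGraph Bool).Walk x [], p.length = x.length := by
  induction x with
  | nil => exact ⟨SimpleGraph.Walk.nil, by simp⟩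
  | cons a x ih =>
    obtain ⟨p, hp⟩ := ih
    exact ⟨SimpleGraph.Walk.cons (adj_cons a x) p, by simp [hp]⟩

lemma conn : (editGraph Bool).Connected := by
  haveI : Nonempty (List Bool) := ⟨[]⟩
  refine SimpleGraph.Connected.mk fun x y => ?_
  obtain ⟨p, _⟩ := exists_walk_nil x
  obtain ⟨q, _⟩ := exists_walk_nil y
  exact ⟨p.append q.reverse⟩

lemma exists_walk (x y : List Bool) : ∃ p : (editGraph Bool).Walk x y, p.length = editDist x y :=
  conn.exists_walk_length_eq_dist x y

lemma ed_le {x y : List Bool} (p : (editGraph Bool).Walk x y) : editDist x y ≤ p.length :=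
  SimpleGraph.dist_le p

lemma ed_self (x : List Bool) : editDist x x = 0 := SimpleGraph.dist_self

lemma ed_symm (x y : List Bool) : editDist x y = editDist y x := SimpleGraph.dist_comm

lemma ed_tri (x y z : List Bool) : editDist x z ≤ editDist x y + editDist y z :=
  conn.dist_triangle

lemma ed_right (x x' s : List Bool) : editDist (x ++ s) (x' ++ s) ≤ editDist x x' := by
  obtain ⟨p, hp⟩ := exists_walk x x'
  have := ed_le (p.map (homR s))
  rw [SimpleGraph.Walk.length_map, hp] at this
  exact this

lemma ed_left (s y y' : List Bool) : editDist (s ++ y) (s ++ y') ≤ editDist y y' := by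
  obtain ⟨p, hp⟩ := exists_walk y y'
  have := ed_le (p.map (homL s))
  rw [SimpleGraph.Walk.length_map, hp] at this
  exact this

lemma ed_nil (x : List Bool) : editDist x [] ≤ x.length := by
  obtain ⟨p, hp⟩ := exists_walk_nil x
  rw [← hp]
  exact ed_le p

lemma ed_rel {x y : List Bool} (h : Rel x y) : editDist x y ≤ 1 := by
  by_cases hxy : x = y
  · subst hxy; rw [ed_self]; omega
  · have : (editGraph Bool).Adj x y := (adj_iff _ _).2 ⟨hxy, Or.inl h⟩
    have := ed_le (SimpleGraph.Walk.cons this SimpleGraph.Walk.nil)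
    simpa using this

lemma ed_rel' {x y : List Bool} (h : Rel y x) : editDist x y ≤ 1 := by
  rw [ed_symm]; exact ed_rel h

/-- a substitution of a concatenation -/
lemma split_subst {x y w : List Bool} (h : IsSubstitution (x ++ y) w) :
    ∃ x' y', w = x' ++ y' ∧ editDist x x' + editDist y y' ≤ 1 := by
  obtain ⟨l, r, a, b, hab, hu, hv⟩ := h
  rcases List.append_eq_append_iff.1 hu with ⟨c, h1, h2⟩ | ⟨c, h1, h2⟩
  · -- l = x ++ c, y = c ++ a :: r
    refine ⟨x, c ++ b :: r, by simp [hv, h1], ?_⟩
    rw [ed_self, zero_add, h2]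
    exact ed_rel (Or.inr ⟨c, r, a, b, hab, rfl, rfl⟩)
  · -- x = l ++ c, a :: r = c ++ y
    cases c with
    | nil =>
      refine ⟨x, b :: r, by simp [hv, h1], ?_⟩
      rw [ed_self, zero_add]
      have : y = a :: r := by simpa using h2.symm
      rw [this]
      exact ed_rel (Or.inr ⟨[], r, a, b, hab, rfl, rfl⟩)
    | cons a' c' =>
      rw [List.cons_append, List.cons.injEq] at h2
      refine ⟨l ++ b :: c', y, by simp [hv, h2.2], ?_⟩
      rw [ed_self, add_zero, h1, ← h2.1]
      exact ed_rel (Or.inr ⟨l, c', a, b, hab, rfl, rfl⟩)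

/-- one edit step of a concatenation -/
lemma split_step {x y w : List Bool} (h : (editGraph Bool).Adj (x ++ y) w) :
    ∃ x' y', w = x' ++ y' ∧ editDist x x' + editDist y y' ≤ 1 := by
  rw [adj_iff] at h
  rcases h.2 with (h | h) | (h | h)
  · obtain ⟨l, r, a, hu, hv⟩ := h
    rcases List.append_eq_append_iff.1 hu with ⟨c, h1, h2⟩ | ⟨c, h1, h2⟩
    · refine ⟨x, c ++ a :: r, by simp [hv, h1], ?_⟩
      rw [ed_self, zero_add, h2]
      exact ed_rel (Or.inl ⟨c, r, a, rfl, rfl⟩)
    · refine ⟨l ++ a :: c, y, by simp [hv, h2], ?_⟩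
      rw [ed_self, add_zero, h1]
      exact ed_rel (Or.inl ⟨l, c, a, rfl, rfl⟩)
  · exact split_subst h
  · obtain ⟨l, r, a, hu, hv⟩ := h
    rcases List.append_eq_append_iff.1 hv with ⟨c, h1, h2⟩ | ⟨c, h1, h2⟩
    · refine ⟨x, c ++ r, by simp [hu, h1], ?_⟩
      rw [ed_self, zero_add, h2]
      exact ed_rel' (Or.inl ⟨c, r, a, rfl, rfl⟩)
    · cases c with
      | nil =>
        refine ⟨x, r, by simp [hu, h1], ?_⟩
        rw [ed_self, zero_add]
        have : y = a :: r := by simpa using h2.symm
        rw [this]
        exact ed_rel' (Or.inl ⟨[], r, a, rfl, rfl⟩)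
      | cons a' c' =>
        rw [List.cons_append, List.cons.injEq] at h2
        refine ⟨l ++ c', y, by simp [hu, h2.2], ?_⟩
        rw [ed_self, add_zero, h1, ← h2.1]
        exact ed_rel' (Or.inl ⟨l, c', a, rfl, rfl⟩)
  · exact split_subst (subst_symm h)

lemma split_walk {w z : List Bool} (p : (editGraph Bool).Walk w z) :
    ∀ x y : List Bool, w = x ++ y → ∃ z₁ z₂, z = z₁ ++ z₂ ∧
      editDist x z₁ + editDist y z₂ ≤ p.length := by
  induction p with
  | nil => intro x y h; exact ⟨x, y, h, by simp [ed_self]⟩
  | cons h p ih =>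
    intro x y hw
    subst hw
    obtain ⟨x', y', hw', h1⟩ := split_step h
    obtain ⟨z₁, z₂, hz, h2⟩ := ih x' y' hw'
    refine ⟨z₁, z₂, hz, ?_⟩
    have := ed_tri x x' z₁
    have := ed_tri y y' z₂
    rw [SimpleGraph.Walk.length_cons]
    omega

lemma length_step {x y : List Bool} (h : (editGraph Bool).Adj x y) : y.length ≤ x.length + 1 := by
  rw [adj_iff] at h
  rcases h.2 with (h | h) | (h | h)
  · obtain ⟨l, r, a, hu, hv⟩ := h
    simp [hu, hv]; omega
  · obtain ⟨l, r, a, b, _, hu, hv⟩ := h
    simp [hu, hv]
  · obtain ⟨l, r, a, hu, hv⟩ := h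
    simp [hu, hv]; omega
  · obtain ⟨l, r, a, b, _, hu, hv⟩ := h
    simp [hu, hv]

lemma length_walk {x y : List Bool} (p : (editGraph Bool).Walk x y) :
    y.length ≤ x.length + p.length := by
  induction p with
  | nil => simp
  | cons h p ih =>
    have := length_step h
    rw [SimpleGraph.Walk.length_cons]
    omega

lemma ed_cons (a b : Bool) (x y : List Bool) : editDist (a :: x) (b :: y) ≤ 1 + editDist x y := by
  have h1 : editDist (a :: x) (b :: x) ≤ 1 := by
    by_cases hab : a = b
    · subst hab; rw [ed_self]; omega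
    · exact ed_rel (Or.inr ⟨[], x, a, b, hab, rfl, rfl⟩)
  have h2 : editDist (b :: x) (b :: y) ≤ editDist x y := ed_left [b] x y
  have := ed_tri (a :: x) (b :: x) (b :: y)
  omega

end T1

open T1

theorem edBasic : EDBasic where
  self := ed_self
  symm := ed_symm
  pos := fun x y h => conn.pos_dist_of_ne h
  tri := ed_tri
  append := fun x x' y y' => by
    have h1 := ed_right x x' y
    have h2 := ed_left x' y y'
    have := ed_tri (x ++ y) (x' ++ y) (x' ++ y')
    omega
  split := fun x y z => by
    obtain ⟨p, hp⟩ := exists_walk (x ++ y) z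
    rw [← hp]
    exact split_walk p x y rfl
  length_le := fun x y => by
    obtain ⟨p, hp⟩ := exists_walk x y
    rw [← hp]
    exact length_walk p
  le_length := fun x => by
    induction x with
    | nil =>
      intro y h
      have : y = [] := List.length_eq_zero_iff.1 h.symm
      subst this
      rw [ed_self]; omega
    | cons a x ih =>
      intro y h
      cases y with
      | nil => simp at h
      | cons b y =>
        have h1 := ih y (by simpa using h)
        have h2 := ed_cons a b x y
        simp only [List.length_cons]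
        omega
  shift := fun x y z => by
    have h1 : editDist (x ++ y) y ≤ x.length := by
      have := ed_right x [] y
      rw [List.nil_append] at this
      exact this.trans (ed_nil x)
    have h2 : editDist y (y ++ z) ≤ z.length := by
      have := ed_left y z []
      rw [List.append_nil] at this
      rw [ed_symm]
      exact this.trans (ed_nil z)
    have := ed_tri (x ++ y) y (y ++ z)
    omega

end Crest.Agent.H7
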