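import Crest.Agent.H7.Defs

/-!
# Row 210 (S0323), task T10: `ChooseL`
-/

set_option autoImplicit false

namespace Crest.Agent.H7

namespace T10

lemma analysis (L ld : ℝ) (hLr : (2 : ℝ) ^ 20 ≤ L)
    (hlower : 62 * L ^ 2 * Real.log L ≤ ld)
    (hupper : ld ≤ 62 * (L + 1) ^ 2 * Real.log (L + 1)) :
    1 / 64 * Real.sqrt (ld * Real.log ld) ≤ L * (Real.log L - Real.log 256) - 3 * Real.log L := by
  have hL0 : (0 : ℝ) < L := lt_of_lt_of_le (by norm_num) hLr
  have hℓ13' : 13 ≤ Real.log L := by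
    have e1 : Real.log ((2 : ℝ) ^ 20) ≤ Real.log L := Real.log_le_log (by norm_num) hLr
    rw [Real.log_pow] at e1
    have e2 := Real.log_two_gt_d9
    push_cast at e1
    linarith
  obtain ⟨ℓ, hℓ⟩ : ∃ ℓ, ℓ = Real.log L := ⟨_, rfl⟩
  rw [← hℓ] at hlower hℓ13' ⊢
  have hℓ0 : 0 < ℓ := by linarith
  have hlogd_upper : ld ≤ 248 * L ^ 2 * ℓ := by
    have e3 : Real.log (L + 1) ≤ 2 * ℓ := by
      have : L + 1 ≤ L ^ 2 := by nlinarith
      have e4 := Real.log_le_log (by linarith) this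
      rw [Real.log_pow] at e4
      push_cast at e4
      rw [hℓ]
      exact e4
    have e5 : (L + 1) ^ 2 ≤ 2 * L ^ 2 := by nlinarith
    have e6 : 0 ≤ Real.log (L + 1) := Real.log_nonneg (by linarith)
    calc ld ≤ 62 * (L + 1) ^ 2 * Real.log (L + 1) := hupper
      _ ≤ 62 * (2 * L ^ 2) * (2 * ℓ) := by
        apply mul_le_mul _ e3 e6 (by positivity)
        linarith
      _ = 248 * L ^ 2 * ℓ := by ring
  have hL2 : (1 : ℝ) ≤ L ^ 2 := by
    have : (1 : ℝ) ≤ L := by linarith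
    nlinarith
  have hlogd1 : 1 ≤ ld := by nlinarith
  have hlog2_lower : 0 ≤ Real.log ld := Real.log_nonneg hlogd1
  have hlog2_upper : Real.log ld ≤ 4 * ℓ := by
    have e1 := Real.log_le_log (by linarith) hlogd_upper
    rw [Real.log_mul (by positivity) (by positivity), Real.log_mul (by positivity) (by positivity),
      Real.log_pow, ← hℓ] at e1
    have e2 : Real.log ℓ ≤ ℓ - 1 := Real.log_le_sub_one_of_pos (by linarith)
    have e3 : Real.log 248 ≤ 6 := by
      have e4 : Real.log 248 ≤ Real.log ((2 : ℝ) ^ 8) := Real.log_le_log (by norm_num) (by norm_num)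
      rw [Real.log_pow] at e4
      have e5 := Real.log_two_lt_d9
      push_cast at e4
      linarith
    push_cast at e1
    linarith
  have hsqrt : Real.sqrt (ld * Real.log ld) ≤ 32 * L * ℓ := by
    rw [show 32 * L * ℓ = Real.sqrt ((32 * L * ℓ) ^ 2) from
      (Real.sqrt_sq (by positivity)).symm]
    apply Real.sqrt_le_sqrt
    calc ld * Real.log ld ≤ (248 * L ^ 2 * ℓ) * (4 * ℓ) :=
        mul_le_mul hlogd_upper hlog2_upper hlog2_lower (by positivity)
      _ ≤ (32 * L * ℓ) ^ 2 := by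
        have : 0 ≤ L ^ 2 * ℓ ^ 2 := by positivity
        nlinarith
  have h256 : Real.log 256 ≤ 5.5452 := by
    have e4 : Real.log 256 = 8 * Real.log 2 := by
      rw [show (256 : ℝ) = 2 ^ 8 by norm_num, Real.log_pow]
      push_cast
      ring
    have e5 := Real.log_two_lt_d9
    rw [e4]
    linarith
  have hmain : L * ℓ / 2 ≤ L * (ℓ - Real.log 256) - 3 * ℓ := by
    have e1 : 0.07 * ℓ ≤ ℓ / 2 - Real.log 256 := by linarith
    have e2 : L * (0.07 * ℓ) ≤ L * (ℓ / 2 - Real.log 256) :=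
      mul_le_mul_of_nonneg_left e1 hL0.le
    have e3 : 3 * ℓ ≤ L * (0.07 * ℓ) := by
      have : (43 : ℝ) ≤ L := by linarith
      nlinarith
    linarith
  calc 1 / 64 * Real.sqrt (ld * Real.log ld) ≤ 1 / 64 * (32 * L * ℓ) := by
        apply mul_le_mul_of_nonneg_left hsqrt (by norm_num)
    _ = L * ℓ / 2 := by ring
    _ ≤ L * (ℓ - Real.log 256) - 3 * ℓ := hmain

lemma choose_nat (L₁ d : ℕ) (hL₁ : 1 ≤ L₁) (hd : L₁ ^ (62 * L₁ ^ 2) ≤ d) :
    ∃ L : ℕ, L₁ ≤ L ∧ L ^ (62 * L ^ 2) ≤ d ∧ d < (L + 1) ^ (62 * (L + 1) ^ 2) := by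
  have hself : ∀ L : ℕ, 1 ≤ L → L ≤ L ^ (62 * L ^ 2) := by
    intro L hL
    apply Nat.le_self_pow
    positivity
  have hL₁d : L₁ ≤ d := le_trans (hself L₁ hL₁) hd
  refine ⟨Nat.findGreatest (fun L => L ^ (62 * L ^ 2) ≤ d) d, Nat.le_findGreatest hL₁d hd,
    Nat.findGreatest_spec (P := fun L => L ^ (62 * L ^ 2) ≤ d) hL₁d hd, ?_⟩
  by_contra hcon
  push Not at hcon
  have h4 : Nat.findGreatest (fun L => L ^ (62 * L ^ 2) ≤ d) d + 1 ≤ d :=
    le_trans (hself _ (by omega)) hcon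
  have h5 := Nat.le_findGreatest (P := fun L => L ^ (62 * L ^ 2) ≤ d) h4 hcon
  omega

end T10

theorem chooseL : ChooseL := by
  intro L₀
  refine ⟨1 / 64, by norm_num, (max L₀ 1048576) ^ (62 * (max L₀ 1048576) ^ 2), ?_⟩
  intro d hd
  obtain ⟨L, h1, h2, h3⟩ := T10.choose_nat (max L₀ 1048576) d
    (le_trans (by norm_num) (le_max_right _ _)) hd
  clear hd
  have hL20 : 1048576 ≤ L := le_trans (le_max_right _ _) h1
  refine ⟨L, le_trans (le_max_left _ _) h1, by exact_mod_cast h2, ?_⟩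
  clear h1
  -- real analysis
  have hLr : (2 : ℝ) ^ 20 ≤ L := by
    rw [show (2 : ℝ) ^ 20 = 1048576 by norm_num]
    exact_mod_cast hL20
  have hL0 : (0 : ℝ) < L := lt_of_lt_of_le (by norm_num) hLr
  have e1 : ((L : ℝ) ^ (62 * L ^ 2)) ≤ d := by exact_mod_cast h2
  have e2 : (d : ℝ) ≤ ((L : ℝ) + 1) ^ (62 * (L + 1) ^ 2) := by exact_mod_cast h3.le
  have hd0 : (0 : ℝ) < d := lt_of_lt_of_le (pow_pos hL0 _) e1
  have hlower : 62 * (L : ℝ) ^ 2 * Real.log L ≤ Real.log d := by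
    have e3 := Real.log_le_log (pow_pos hL0 _) e1
    rw [Real.log_pow] at e3
    push_cast at e3
    exact e3
  have hupper : Real.log d ≤ 62 * ((L : ℝ) + 1) ^ 2 * Real.log ((L : ℝ) + 1) := by
    have e3 := Real.log_le_log hd0 e2
    rw [Real.log_pow] at e3
    push_cast at e3
    exact e3
  have hmain := T10.analysis L (Real.log d) hLr hlower hupper
  have hx : (0 : ℝ) < ((L : ℝ) / 256) := div_pos hL0 (by norm_num)
  have hpos : 0 < ((L : ℝ) / 256) ^ L / (L : ℝ) ^ 3 := div_pos (pow_pos hx _) (pow_pos hL0 _)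
  rw [← Real.exp_log hpos]
  apply Real.exp_le_exp.mpr
  rw [Real.log_div (pow_pos hx _).ne' (pow_pos hL0 _).ne', Real.log_pow, Real.log_pow,
    Real.log_div hL0.ne' (by norm_num)]
  exact_mod_cast hmain

end Crest.Agent.H7
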