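import Crest.Agent.H7.Defs

/-!
# (T2) the Fourier inequality on a product of cyclic groups
-/

set_option autoImplicit false

namespace Crest.Agent.H7.T2

open scoped BigOperators
open Finset

section Parseval

variable {Γ : Type} [AddCommGroup Γ] [Fintype Γ] [DecidableEq Γ]

/-- unnormalised Fourier transform -/
noncomputable def ft (g : Γ → ℂ) (χ : AddChar Γ ℂ) : ℂ := ∑ u, χ (-u) * g u

lemma conj_char (χ : AddChar Γ ℂ) (u : Γ) : (starRingEnd ℂ) (χ u) = χ (-u) := by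
  rw [AddChar.map_neg_eq_conj]

lemma norm_char (χ : AddChar Γ ℂ) (u : Γ) : ‖χ u‖ = 1 := AddChar.norm_apply χ u

lemma parseval (g : Γ → ℂ) :
    ∑ χ : AddChar Γ ℂ, ft g χ * (starRingEnd ℂ) (ft g χ) =
      (Fintype.card Γ : ℂ) * ∑ u, g u * (starRingEnd ℂ) (g u) := by
  have h1 : ∀ χ : AddChar Γ ℂ, ft g χ * (starRingEnd ℂ) (ft g χ) =
      ∑ u, ∑ v, (g u * (starRingEnd ℂ) (g v)) * χ (v - u) := by
    intro χ
    unfold ft
    rw [map_sum, sum_mul_sum]
    refine sum_congr rfl fun u _ => sum_congr rfl fun v _ => ?_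
    rw [map_mul, conj_char, neg_neg, sub_eq_add_neg, AddChar.map_add_eq_mul]
    ring
  simp_rw [h1]
  rw [sum_comm]
  have h2 : ∀ u, (∑ χ : AddChar Γ ℂ, ∑ v, (g u * (starRingEnd ℂ) (g v)) * χ (v - u)) =
      (Fintype.card Γ : ℂ) * (g u * (starRingEnd ℂ) (g u)) := by
    intro u
    rw [sum_comm]
    simp_rw [← mul_sum, AddChar.sum_apply_eq_ite]
    rw [sum_eq_single u]
    · simp; ring
    · intro v _ hv
      rw [if_neg (sub_ne_zero.2 hv)]; simp
    · simp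
  simp_rw [h2]
  rw [← mul_sum]

lemma ft_shift (g : Γ → ℂ) (v : Γ) (χ : AddChar Γ ℂ) :
    ft (fun u => g u - g (u + v)) χ = ft g χ * (1 - χ v) := by
  unfold ft
  have h : ∑ u, χ (-u) * g (u + v) = χ v * ∑ u, χ (-u) * g u := by
    rw [mul_sum]
    refine Fintype.sum_equiv (Equiv.addRight v) _ _ fun u => ?_
    simp only [Equiv.coe_addRight]
    rw [← mul_assoc, ← AddChar.map_add_eq_mul]
    congr 2
    abel_nf
  simp_rw [mul_sub, sum_sub_distrib]
  rw [h]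
  ring

lemma parseval_shift (g : Γ → ℝ) (v : Γ) :
    (Fintype.card Γ : ℝ) * ∑ u, (g u - g (u + v)) ^ 2 =
      ∑ χ : AddChar Γ ℂ, ‖ft (fun u => (g u : ℂ)) χ‖ ^ 2 * ‖1 - χ v‖ ^ 2 := by
  have h := parseval (fun u => ((g u : ℂ) - (g (u + v) : ℂ)))
  have h3 : ∀ χ : AddChar Γ ℂ, ft (fun u => ((g u : ℂ) - (g (u + v) : ℂ))) χ =
      ft (fun u => (g u : ℂ)) χ * (1 - χ v) := fun χ => ft_shift (fun u => (g u : ℂ)) v χ
  simp_rw [h3] at h
  have h4 : ∀ z : ℂ, z * (starRingEnd ℂ) z = ((‖z‖ ^ 2 : ℝ) : ℂ) := by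
    intro z
    rw [Complex.mul_conj, Complex.normSq_eq_norm_sq]
  simp_rw [h4] at h
  have h5 : (∑ χ : AddChar Γ ℂ, ‖ft (fun u => (g u : ℂ)) χ * (1 - χ v)‖ ^ 2 : ℝ) =
      (Fintype.card Γ : ℝ) * ∑ u, ‖(g u : ℂ) - (g (u + v) : ℂ)‖ ^ 2 := by
    exact_mod_cast h
  have h6 : ∀ u, ‖(g u : ℂ) - (g (u + v) : ℂ)‖ ^ 2 = (g u - g (u + v)) ^ 2 := by
    intro u
    rw [← Complex.ofReal_sub, Complex.norm_real, Real.norm_eq_abs, sq_abs]
  simp_rw [h6] at h5
  rw [← h5]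
  refine sum_congr rfl fun χ _ => ?_
  rw [norm_mul, mul_pow]

/-- reduction of a translation inequality to characters -/
lemma reduce {ι : Type} (s : Finset ι) (A : ℝ) (w : ι → ℝ) (v : ι → Γ) (v₀ v₁ : Γ)
    (hχ : ∀ χ : AddChar Γ ℂ, ‖1 - χ v₀‖ ^ 2 ≤ A * ‖1 - χ v₁‖ ^ 2 +
      ∑ i ∈ s, w i * ‖1 - χ (v i)‖ ^ 2) (g : Γ → ℝ) :
    ∑ u, (g u - g (u + v₀)) ^ 2 ≤ A * ∑ u, (g u - g (u + v₁)) ^ 2 +
      ∑ i ∈ s, w i * ∑ u, (g u - g (u + v i)) ^ 2 := by
  have hc : (0 : ℝ) < Fintype.card Γ := by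
    haveI : Nonempty Γ := ⟨0⟩
    exact_mod_cast Fintype.card_pos
  refine le_of_mul_le_mul_left ?_ hc
  have e1 : (Fintype.card Γ : ℝ) * (A * ∑ u, (g u - g (u + v₁)) ^ 2 +
      ∑ i ∈ s, w i * ∑ u, (g u - g (u + v i)) ^ 2) =
      A * ((Fintype.card Γ : ℝ) * ∑ u, (g u - g (u + v₁)) ^ 2) +
      ∑ i ∈ s, w i * ((Fintype.card Γ : ℝ) * ∑ u, (g u - g (u + v i)) ^ 2) := by
    rw [mul_add, mul_left_comm]
    congr 1
    rw [mul_sum]
    exact sum_congr rfl fun i _ => by rw [mul_left_comm]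
  rw [e1, parseval_shift, parseval_shift]
  simp_rw [parseval_shift]
  have e2 : A * ∑ χ : AddChar Γ ℂ, ‖ft (fun u => (g u : ℂ)) χ‖ ^ 2 * ‖1 - χ v₁‖ ^ 2 +
      ∑ i ∈ s, w i * ∑ χ : AddChar Γ ℂ, ‖ft (fun u => (g u : ℂ)) χ‖ ^ 2 * ‖1 - χ (v i)‖ ^ 2 =
      ∑ χ : AddChar Γ ℂ, ‖ft (fun u => (g u : ℂ)) χ‖ ^ 2 * (A * ‖1 - χ v₁‖ ^ 2 +
        ∑ i ∈ s, w i * ‖1 - χ (v i)‖ ^ 2) := by
    simp_rw [mul_add, mul_sum, sum_add_distrib]
    congr 1
    · exact sum_congr rfl fun χ _ => by ring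
    · rw [sum_comm]
      exact sum_congr rfl fun χ _ => sum_congr rfl fun i _ => by ring
  rw [e2]
  exact sum_le_sum fun χ _ => mul_le_mul_of_nonneg_left (hχ χ) (by positivity)

end Parseval

lemma norm_one_sub_pow (z : ℂ) (hz : ‖z‖ = 1) (t : ℕ) : ‖1 - z ^ t‖ ≤ t * ‖1 - z‖ := by
  induction t with
  | zero => simp
  | succ t ih =>
    have : 1 - z ^ (t + 1) = (1 - z ^ t) + z ^ t * (1 - z) := by ring
    rw [this]
    refine (norm_add_le _ _).trans ?_
    rw [norm_mul, norm_pow, hz, one_pow, one_mul]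
    push_cast
    linarith

/-- sum over a cyclic factor -/
lemma sum_char {n : ℕ} [NeZero n] (ψ : AddChar (ZMod n) ℂ) (hψ : ψ ≠ 1) :
    ∑ z : ZMod n, ‖1 - ψ z‖ ^ 2 = 2 * n := by
  have h1 : ∀ z : ZMod n, ‖1 - ψ z‖ ^ 2 = 2 - 2 * (ψ z).re := by
    intro z
    rw [← Complex.normSq_eq_norm_sq, Complex.normSq_sub]
    have : Complex.normSq (ψ z) = 1 := by
      rw [Complex.normSq_eq_norm_sq, AddChar.norm_apply]; norm_num
    rw [this]
    simp
    ring
  simp_rw [h1]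
  rw [sum_sub_distrib, ← mul_sum, ← Complex.re_sum, AddChar.sum_eq_zero_of_ne_one hψ]
  simp [ZMod.card, mul_comm]

end Crest.Agent.H7.T2

namespace Crest.Agent.H7

open scoped BigOperators
open Finset T2

theorem fourierIneq : FourierIneq := by
  intro m q p q' _ hq hp hq' hqp hpp c hc1 hc0 L T hL hT η g
  classical
  -- the index set of the second term
  have key := reduce (Γ := ∀ a, ZMod (q' a))
    (s := (univ : Finset (Σ a : Fin m, ZMod (q' a)))) (A := (T : ℝ) ^ 2)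
    (w := fun i => (2 / L : ℝ) * (1 / (q' i.1 : ℝ))) (v := fun i => Pi.single i.1 i.2)
    (v₀ := fun a => ((c a * η : ℤ) : ZMod (q' a))) (v₁ := 1) ?_ g
  · refine key.trans (le_of_eq ?_)
    congr 1
    rw [Fintype.sum_sigma, mul_sum]
    refine sum_congr rfl fun a _ => ?_
    simp_rw [mul_sum]
    refine sum_congr rfl fun z _ => sum_congr rfl fun u _ => by ring
  intro χ
  have hL' : (0 : ℝ) < L := by exact_mod_cast hL
  -- restriction to a factor
  let ψ : ∀ a, AddChar (ZMod (q' a)) ℂ := fun a =>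
    χ.compAddMonoidHom (AddMonoidHom.single (fun a => ZMod (q' a)) a)
  have hψ : ∀ a z, ψ a z = χ (Pi.single a z) := fun a z => rfl
  let K : Finset (Fin m) := univ.filter fun a => ψ a ≠ 1
  have hsum : ∑ i : (Σ a : Fin m, ZMod (q' a)), (2 / L : ℝ) * (1 / (q' i.1 : ℝ)) *
      ‖1 - χ (Pi.single i.1 i.2)‖ ^ 2 ≥ (2 / L : ℝ) * (2 * K.card) := by
    rw [Fintype.sum_sigma]
    have h1 : ∀ a ∈ K, ∑ z : ZMod (q' a), (2 / L : ℝ) * (1 / (q' a : ℝ)) *
      ‖1 - χ (Pi.single a z)‖ ^ 2 = (2 / L : ℝ) * 2 := by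
      intro a ha
      have hne : ψ a ≠ 1 := (mem_filter.1 ha).2
      have hq0 : (q' a : ℝ) ≠ 0 := by exact_mod_cast (NeZero.ne (q' a))
      rw [← mul_sum]
      have := sum_char (ψ a) hne
      simp_rw [hψ] at this
      rw [this]
      field_simp
    calc (2 / L : ℝ) * (2 * K.card) = ∑ a ∈ K, (2 / L : ℝ) * 2 := by
          rw [sum_const, nsmul_eq_mul]; ring
      _ = ∑ a ∈ K, ∑ z : ZMod (q' a), (2 / L : ℝ) * (1 / (q' a : ℝ)) *
            ‖1 - χ (Pi.single a z)‖ ^ 2 := (sum_congr rfl h1).symm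
      _ ≤ _ := sum_le_univ_sum_of_nonneg fun a => sum_nonneg fun z _ => by positivity
  by_cases hK : L ≤ K.card
  · have h4 : ‖1 - χ (fun a => ((c a * η : ℤ) : ZMod (q' a)))‖ ^ 2 ≤ 4 := by
      have : ‖1 - χ (fun a => ((c a * η : ℤ) : ZMod (q' a)))‖ ≤ 2 := by
        refine (norm_sub_le _ _).trans ?_
        rw [norm_char]; norm_num
      nlinarith [norm_nonneg (1 - χ (fun a => ((c a * η : ℤ) : ZMod (q' a))))]
    have h5 : (4 : ℝ) ≤ (2 / L : ℝ) * (2 * K.card) := by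
      have : (L : ℝ) ≤ K.card := by exact_mod_cast hK
      rw [div_mul_eq_mul_div, le_div_iff₀ hL']
      nlinarith
    have h6 : (0 : ℝ) ≤ (T : ℝ) ^ 2 * ‖1 - χ 1‖ ^ 2 := by positivity
    linarith
  · push Not at hK
    -- CRT
    have hcrt : ∃ t : ℕ, t ≤ T ∧ ∀ a ∈ K, ((t : ℤ) ≡ c a * η [ZMOD (q' a)]) := by
      obtain ⟨t₀, ht₀⟩ : ∃ t₀ : ℤ, t₀ ≡ η [ZMOD q] ∧ t₀ ≡ 0 [ZMOD ((∏ a ∈ K, p a : ℕ) : ℤ)] := by
        have hcop : IsCoprime (q : ℤ) ((∏ a ∈ K, p a : ℕ) : ℤ) := by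
          rw [Nat.isCoprime_iff_coprime]
          exact Nat.Coprime.prod_right fun a _ => hqp a
        obtain ⟨x, y, hxy⟩ := hcop
        refine ⟨y * ((∏ a ∈ K, p a : ℕ) : ℤ) * η, ?_, ?_⟩
        · rw [Int.modEq_iff_dvd]
          refine ⟨x * η, ?_⟩
          linear_combination (-η) * hxy
        · rw [Int.modEq_iff_dvd]
          exact ⟨- (y * η), by ring⟩
      set P : ℕ := ∏ a ∈ K, p a with hP
      have hPpos : 0 < P := prod_pos fun a _ => hp a
      have hM : (0 : ℤ) < (q * P : ℕ) := by exact_mod_cast Nat.mul_pos hq hPpos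
      refine ⟨(t₀ % (q * P : ℕ)).toNat, ?_, ?_⟩
      · have h1 : t₀ % (q * P : ℕ) < (q * P : ℕ) := Int.emod_lt_of_pos _ hM
        have h2 : 0 ≤ t₀ % (q * P : ℕ) := Int.emod_nonneg _ hM.ne'
        have h3 : q * P ≤ T := hT K hK
        generalize q * P = R at h1 h2 h3
        omega
      · intro a ha
        have h2 : 0 ≤ t₀ % (q * P : ℕ) := Int.emod_nonneg _ hM.ne'
        rw [Int.toNat_of_nonneg h2]
        have hmod : t₀ % (q * P : ℕ) ≡ t₀ [ZMOD (q * P : ℕ)] := Int.mod_modEq _ _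
        have hdq : (q : ℤ) ∣ (q * P : ℕ) := by exact_mod_cast Dvd.intro _ rfl
        have hdp : (p a : ℤ) ∣ (q * P : ℕ) := by
          have : p a ∣ q * P := (dvd_prod_of_mem p ha).mul_left q
          exact_mod_cast this
        have hdP : (p a : ℤ) ∣ (P : ℕ) := by exact_mod_cast dvd_prod_of_mem p ha
        have m1 : t₀ % (q * P : ℕ) ≡ c a * η [ZMOD q] := by
          have := (hc1 a).mul_right η
          rw [one_mul] at this
          exact ((hmod.of_dvd hdq).trans ht₀.1).trans this.symm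
        have m2 : t₀ % (q * P : ℕ) ≡ c a * η [ZMOD (p a)] := by
          have := (hc0 a).mul_right η
          rw [zero_mul] at this
          exact ((hmod.of_dvd hdp).trans (ht₀.2.of_dvd hdP)).trans this.symm
        have hco : IsCoprime (q : ℤ) (p a : ℤ) := Nat.isCoprime_iff_coprime.2 (hqp a)
        rw [Int.modEq_iff_dvd] at m1 m2 ⊢
        have := hco.mul_dvd m1 m2
        rw [hq' a]
        push_cast
        exact this
    obtain ⟨t, htT, ht⟩ := hcrt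
    have hv : χ (fun a => ((c a * η : ℤ) : ZMod (q' a))) = χ 1 ^ t := by
      have h1 : ∀ v : (∀ a, ZMod (q' a)), χ v = ∏ a, ψ a (v a) := by
        intro v
        conv_lhs => rw [← Finset.univ_sum_single v]
        have h0 : ∀ s : Finset (Fin m), χ (∑ a ∈ s, Pi.single a (v a)) =
            ∏ a ∈ s, ψ a (v a) := by
          intro s
          induction s using Finset.induction_on with
          | empty => simp
          | insert a s ha ih => rw [sum_insert ha, prod_insert ha, AddChar.map_add_eq_mul, ih, hψ]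
        exact h0 _
      rw [← AddChar.map_nsmul_eq_pow, h1, h1]
      refine prod_congr rfl fun a _ => ?_
      by_cases ha : a ∈ K
      · congr 1
        have := ht a ha
        have h2 := (ZMod.intCast_eq_intCast_iff _ _ _).2 this
        rw [← h2]
        simp
      · have : ψ a = 1 := by
          by_contra hne
          exact ha (mem_filter.2 ⟨mem_univ _, hne⟩)
        rw [this]; simp
    rw [hv]
    have h1 : ‖1 - χ 1 ^ t‖ ≤ t * ‖1 - χ 1‖ := norm_one_sub_pow _ (norm_char χ 1) t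
    have h2 : ‖1 - χ 1 ^ t‖ ≤ T * ‖1 - χ 1‖ := h1.trans (by
      gcongr)
    have h3 : ‖1 - χ 1 ^ t‖ ^ 2 ≤ (T : ℝ) ^ 2 * ‖1 - χ 1‖ ^ 2 := by
      rw [← mul_pow]
      gcongr
    have h4 : (0 : ℝ) ≤ (2 / L : ℝ) * (2 * K.card) := by positivity
    linarith

end Crest.Agent.H7
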