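import Crest.Agent.H7.Defs

set_option autoImplicit false

namespace Crest.Agent.H7

open scoped BigOperators

namespace T3

open MeasureTheory

lemma ind_sq (a b θ : ℝ) :
    ((if θ < a then (1 : ℝ) else 0) - (if θ < b then (1 : ℝ) else 0)) ^ 2 =
      (Set.Ico (min a b) (max a b)).indicator (fun _ => (1 : ℝ)) θ := by
  by_cases h1 : θ < a <;> by_cases h2 : θ < b
  · have : θ ∉ Set.Ico (min a b) (max a b) := by
      rintro ⟨h3, -⟩
      rcases min_le_iff.1 h3 with h | h <;> linarith
    rw [Set.indicator_of_notMem this]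
    simp [h1, h2]
  · have : θ ∈ Set.Ico (min a b) (max a b) :=
      ⟨min_le_iff.2 (Or.inr (not_lt.1 h2)), lt_max_iff.2 (Or.inl h1)⟩
    rw [Set.indicator_of_mem this]
    simp [h1, h2]
  · have : θ ∈ Set.Ico (min a b) (max a b) :=
      ⟨min_le_iff.2 (Or.inl (not_lt.1 h1)), lt_max_iff.2 (Or.inr h2)⟩
    rw [Set.indicator_of_mem this]
    simp [h1, h2]
  · have : θ ∉ Set.Ico (min a b) (max a b) := by
      rintro ⟨-, h3⟩
      rcases lt_max_iff.1 h3 with h | h <;> linarith
    rw [Set.indicator_of_notMem this]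
    simp [h1, h2]

lemma integrable_ind (a b : ℝ) : Integrable (fun θ : ℝ =>
    ((if θ < a then (1 : ℝ) else 0) - (if θ < b then (1 : ℝ) else 0)) ^ 2) := by
  simp only [ind_sq]
  refine IntegrableOn.integrable_indicator ?_ measurableSet_Ico
  exact integrableOn_const (by simp) (by simp)

lemma integral_ind (a b : ℝ) : ∫ θ : ℝ,
    ((if θ < a then (1 : ℝ) else 0) - (if θ < b then (1 : ℝ) else 0)) ^ 2 = |a - b| := by
  simp only [ind_sq]
  rw [integral_indicator measurableSet_Ico]
  simp only [integral_const, smul_eq_mul, mul_one]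
  rw [Measure.real, Measure.restrict_apply_univ, Real.volume_Ico, ENNReal.toReal_ofReal]
  · exact max_sub_min_eq_abs' a b
  · exact sub_nonneg.2 min_le_max

lemma real_case {ι : Type} [Fintype ι] (c : ι → ι → ℝ)
    (hc : ∀ g : ι → ℝ, 0 ≤ ∑ i, ∑ j, c i j * (g i - g j) ^ 2) (a : ι → ℝ) :
    0 ≤ ∑ i, ∑ j, c i j * |a i - a j| := by
  have h1 : ∑ i, ∑ j, c i j * |a i - a j| = ∫ θ : ℝ, ∑ i, ∑ j, c i j *
      ((if θ < a i then (1 : ℝ) else 0) - (if θ < a j then (1 : ℝ) else 0)) ^ 2 := by
    rw [integral_finsetSum _ fun i _ => integrable_finsetSum _ fun j _ =>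
      (integrable_ind (a i) (a j)).const_mul (c i j)]
    refine Finset.sum_congr rfl fun i _ => ?_
    rw [integral_finsetSum _ fun j _ => (integrable_ind (a i) (a j)).const_mul (c i j)]
    refine Finset.sum_congr rfl fun j _ => ?_
    rw [integral_const_mul, integral_ind]
  rw [h1]
  exact integral_nonneg fun θ => hc fun i => if θ < a i then (1 : ℝ) else 0

end T3

theorem negL1 : NegL1 := by
  intro α f ι _ c hc x
  have h1 : ∀ u v : lp (fun _ : ℕ => ℝ) 1, HasSum (fun k => |u k - v k|) ‖u - v‖ := by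
    intro u v
    have := lp.hasSum_norm (p := 1) (by norm_num) (u - v)
    simpa using this
  have h2 : HasSum (fun k => ∑ i, ∑ j, c i j * |f (x i) k - f (x j) k|)
      (∑ i, ∑ j, c i j * ‖f (x i) - f (x j)‖) :=
    hasSum_sum fun i _ => hasSum_sum fun j _ => (h1 _ _).mul_left _
  exact h2.nonneg fun k => T3.real_case c hc fun i => f (x i) k

end Crest.Agent.H7
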