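import Crest.Agent.H7.T1

/-!
# (T4) explicit code
-/

set_option autoImplicit false

namespace Crest.Agent.H7

open Crest.GeometryTopology.EditDistance

namespace T4

/-- the periodic pattern -/
def P (k i : ℕ) : Bool := if i < 3 then true else if i % 2 = 1 then false else k.testBit ((i - 4) / 2)

/-- the code words -/
def code (r k : ℕ) : List Bool := (List.range (6 * (2 * r + 4))).map fun i => P k (i % (2 * r + 4))

lemma factor {x l : List Bool} (h : x <:+: l) :
    ∃ o, ∀ i, i < x.length → x[i]? = l[o + i]? := by
  obtain ⟨s, t, rfl⟩ := h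
  refine ⟨s.length, fun i hi => ?_⟩
  rw [List.append_assoc, List.getElem?_append_right (by omega), List.getElem?_append_left (by omega)]
  congr 1
  omega

lemma factor_code {r k : ℕ} {x : List Bool} (h : x <:+: code r k) :
    ∃ o, ∀ i, i < x.length → x[i]? = some (P k ((o + i) % (2 * r + 4))) := by
  obtain ⟨o, ho⟩ := factor h
  refine ⟨o, fun i hi => ?_⟩
  have h1 := ho i hi
  have h2 : o + i < 6 * (2 * r + 4) := by
    by_contra hcon
    rw [List.getElem?_eq_none (l := code r k) (by simp [code]; omega),
      List.getElem?_eq_getElem hi] at h1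
    exact absurd h1 (by simp)
  rw [h1]
  unfold code
  rw [List.getElem?_map, List.getElem?_range h2]
  rfl

lemma marker {k d s : ℕ} (hs : s % 2 = 0) (hs4 : 4 ≤ s) (hd : d < s)
    (h0 : P k (d % s) = true) (h1 : P k ((d + 1) % s) = true) (h2 : P k ((d + 2) % s) = true) :
    d = 0 := by
  by_contra hne
  have key : ∀ i, i < s → i % 2 = 1 → 3 ≤ i → P k (i % s) = false := by
    intro i hi h1 h3
    rw [Nat.mod_eq_of_lt hi]
    unfold P
    rw [if_neg (by omega), if_pos h1]
  rcases Nat.lt_or_ge d 3 with h | h
  · have : d = 1 ∨ d = 2 := by omega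
    rcases this with rfl | rfl
    · rw [key 3 (by omega) (by norm_num) (by norm_num)] at h2
      exact absurd h2 (by simp)
    · rw [key 3 (by omega) (by norm_num) (by norm_num)] at h1
      exact absurd h1 (by simp)
  · rcases Nat.mod_two_eq_zero_or_one d with h' | h'
    · rw [key (d + 1) (by omega) (by omega) (by omega)] at h1
      exact absurd h1 (by simp)
    · rw [key d hd h' h] at h0
      exact absurd h0 (by simp)

end T4

open T4

theorem baseCode : BaseCode := by
  intro r
  refine ⟨code r, fun k => by simp [code], ?_⟩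
  intro k k' hk hk' hne x y hx hy hlen
  have key : x ≠ y := by
    rintro rfl
    obtain ⟨o, ho⟩ := factor_code hx
    obtain ⟨o', ho'⟩ := factor_code hy
    have hl : 2 * (2 * r + 4) ≤ x.length := by omega
    have e : ∀ i, i < 2 * (2 * r + 4) →
        P k ((o + i) % (2 * r + 4)) = P k' ((o' + i) % (2 * r + 4)) := by
      intro i hi
      have h1 := ho i (by omega)
      rw [ho' i (by omega)] at h1
      exact (Option.some.inj h1).symm
    generalize hs : 2 * r + 4 = s at *
    have hs0 : 0 < s := by omega
    -- offset
    obtain ⟨i₀, hi₀, h0⟩ : ∃ i₀, i₀ < s ∧ (o + i₀) % s = 0 := by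
      rcases Nat.eq_zero_or_pos (o % s) with h | h
      · exact ⟨0, hs0, by simpa using h⟩
      · refine ⟨s - o % s, by omega, ?_⟩
        have h1 : o + (s - o % s) = s * (o / s + 1) := by
          have := Nat.div_add_mod o s
          have h2 := Nat.mod_lt o hs0
          rw [Nat.mul_add, Nat.mul_one]
          omega
        rw [h1]
        exact Nat.mul_mod_right _ _
    have e2 : ∀ j, j < s → P k j = P k' ((o' + i₀ + j) % s) := by
      intro j hj
      have h1 := e (i₀ + j) (by omega)
      rw [← Nat.add_assoc, ← Nat.add_assoc] at h1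
      rw [← h1]
      congr 1
      rw [Nat.add_mod, h0, Nat.zero_add, Nat.mod_mod, Nat.mod_eq_of_lt hj]
    have hP : ∀ j, j < 3 → P k j = true := by
      intro j hj; unfold P; rw [if_pos hj]
    have hm : ∀ j, (o' + i₀ + j) % s = ((o' + i₀) % s + j) % s := by
      intro j; rw [Nat.mod_add_mod]
    have hd : (o' + i₀) % s = 0 := by
      refine marker (k := k') (s := s) (by omega) (by omega) (Nat.mod_lt _ hs0) ?_ ?_ ?_
      · have h1 := e2 0 hs0
        rw [Nat.add_zero] at h1
        rw [Nat.mod_mod, ← h1]
        exact hP 0 (by norm_num)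
      · rw [← hm 1, ← e2 1 (by omega)]
        exact hP 1 (by norm_num)
      · rw [← hm 2, ← e2 2 (by omega)]
        exact hP 2 (by norm_num)
    have e3 : ∀ j, j < s → P k j = P k' j := by
      intro j hj
      have h1 := e2 j hj
      rw [hm, hd, Nat.zero_add, Nat.mod_eq_of_lt hj] at h1
      exact h1
    apply hne
    refine Nat.eq_of_testBit_eq fun b => ?_
    rcases Nat.lt_or_ge b r with hb | hb
    · have h1 := e3 (4 + 2 * b) (by omega)
      unfold P at h1
      rw [if_neg (by omega), if_neg (by omega), if_neg (by omega), if_neg (by omega)] at h1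
      have h2 : (4 + 2 * b - 4) / 2 = b := by omega
      rw [h2] at h1
      exact h1
    · rw [Nat.testBit_eq_false_of_lt (lt_of_lt_of_le hk (Nat.pow_le_pow_right (by norm_num) hb)),
        Nat.testBit_eq_false_of_lt (lt_of_lt_of_le hk' (Nat.pow_le_pow_right (by norm_num) hb))]
  exact_mod_cast edBasic.pos x y key

end Crest.Agent.H7
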