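import Crest.Agent.H7.Defs

/-!
# (T5) polynomial bound for the `k`-th prime
-/

set_option autoImplicit false

namespace Crest.Agent.H7

open Real Filter

theorem primeBound : PrimeBound := by
  -- for large `k`, `(k + 1) * (2 log k) ≤ k² log 2 - log (k² + 1)`
  have hlog : ∀ᶠ k : ℕ in atTop, Real.log k ≤ (k : ℝ) / 16 := by
    have h := (isLittleO_log_id_atTop.def (by norm_num : (0 : ℝ) < 1 / 16))
    have h2 := tendsto_natCast_atTop_atTop (R := ℝ) |>.eventually h
    filter_upwards [h2, eventually_ge_atTop 1] with k hk h1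
    have h3 : (1 : ℝ) ≤ k := by exact_mod_cast h1
    simp only [id, Real.norm_eq_abs] at hk
    rw [abs_of_nonneg (Real.log_nonneg h3), abs_of_nonneg (by positivity)] at hk
    linarith
  obtain ⟨k₀, hk₀⟩ := eventually_atTop.1 hlog
  refine ⟨max k₀ 10, fun k hk => ?_⟩
  have h10 : 10 ≤ k := le_trans (le_max_right _ _) hk
  have hl := hk₀ k (le_trans (le_max_left _ _) hk)
  have hkR : (10 : ℝ) ≤ k := by exact_mod_cast h10
  have hlogpos : 0 < Real.log k := Real.log_pos (by linarith)
  have hpi := Chebyshev.pi_ge (k ^ 2)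
  have e1 : Real.log ((k ^ 2 : ℕ) : ℝ) = 2 * Real.log k := by
    push_cast; rw [Real.log_pow]; norm_num
  have e2 : Real.log (((k ^ 2 : ℕ) : ℝ) + 1) ≤ 2 * Real.log k + 1 := by
    have : ((k ^ 2 : ℕ) : ℝ) + 1 ≤ (k : ℝ) ^ 2 * Real.exp 1 := by
      push_cast
      have := Real.add_one_le_exp (1 : ℝ)
      nlinarith
    calc Real.log (((k ^ 2 : ℕ) : ℝ) + 1) ≤ Real.log ((k : ℝ) ^ 2 * Real.exp 1) :=
          Real.log_le_log (by positivity) this
      _ = 2 * Real.log k + 1 := by
          rw [Real.log_mul (by positivity) (Real.exp_ne_zero 1), Real.log_pow, Real.log_exp]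
          norm_num
  have hpi2 : (k : ℝ) + 1 ≤ (Nat.primeCounting (k ^ 2) : ℝ) := by
    refine le_trans ?_ hpi
    rw [e1, le_div_iff₀ (by positivity)]
    have h2 := Real.log_two_gt_d9
    push_cast
    push_cast at e2
    nlinarith
  have hpi3 : k < Nat.count Nat.Prime (k ^ 2 + 1) := by
    have : k + 1 ≤ Nat.primeCounting (k ^ 2) := by exact_mod_cast hpi2
    rw [Nat.primeCounting, Nat.primeCounting'] at this
    omega
  have := Nat.nth_lt_of_lt_count hpi3
  omega

end Crest.Agent.H7
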