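import Crest.Agent.H7.Defs

set_option autoImplicit false

namespace Crest.Agent.H7

open Crest.GeometryTopology.EditDistance
open scoped BigOperators

theorem Neg.comp {α β : Type} {ρ : β → β → ℝ} (h : Neg ρ) (F : α → β) :
    Neg (fun x y => ρ (F x) (F y)) :=
  fun ι _ c hc x => h ι c hc (fun i => F (x i))

theorem neg_transfer {Γ α S : Type} [Fintype Γ] [Fintype S] {ρ : α → α → ℝ} (h : Neg ρ)
    (wt : S → ℝ) (σ : S → Γ → Γ)
    (H : ∀ g : Γ → ℝ, 0 ≤ ∑ s, wt s * ∑ u, (g u - g (σ s u)) ^ 2) (x : Γ → α) :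
    0 ≤ ∑ s, wt s * ∑ u, ρ (x u) (x (σ s u)) := by
  classical
  have key : ∀ F : Γ → Γ → ℝ, ∑ i, ∑ j, (∑ s, wt s * if j = σ s i then 1 else 0) * F i j =
      ∑ s, wt s * ∑ u, F u (σ s u) := by
    intro F
    simp only [Finset.sum_mul, Finset.mul_sum]
    have h1 : ∀ i : Γ, ∑ j, ∑ s, wt s * (if j = σ s i then 1 else 0) * F i j =
        ∑ s, wt s * F i (σ s i) := by
      intro i
      rw [Finset.sum_comm]
      refine Finset.sum_congr rfl (fun s _ => ?_)
      simp
    simp only [h1]
    rw [Finset.sum_comm]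
  have h2 := h Γ (fun i j => ∑ s, wt s * if j = σ s i then 1 else 0) (fun g => by
    rw [key (fun i j => (g i - g j) ^ 2)]; exact H g) x
  rwa [key (fun i j => ρ (x i) (x j))] at h2

/-! ### edit distance of joined words -/

theorem ed_flatMap_le (h : EDBasic) {β : Type} (l : List β) (f g : β → List Bool) :
    editDist (l.flatMap f) (l.flatMap g) ≤ (l.map fun i => editDist (f i) (g i)).sum := by
  induction l with
  | nil => simp [h.self]
  | cons a l ih =>
    simp only [List.flatMap_cons, List.map_cons, List.sum_cons]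
    exact (h.append _ _ _ _).trans (Nat.add_le_add_left ih _)

theorem length_cell {m B : ℕ} (f : Fin m → List Bool) (hf : ∀ a, (f a).length = B) :
    ((List.finRange m).flatMap f).length = m * B := by
  rw [List.length_flatMap]
  simp [hf]

theorem length_joinW {N m B : ℕ} (X : Fin m → ℤ → List Bool) (u c : Fin m → ℤ) (θ : ℤ)
    (hX : ∀ a t, (X a t).length = B) : (joinW N X u c θ).length = N * (m * B) := by
  unfold joinW
  rw [List.length_flatMap]
  have : ∀ i : ℕ, ((List.finRange m).flatMap fun a => X a ((i : ℤ) + u a + c a * θ)).length =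
      m * B := fun i => length_cell _ (fun a => hX a _)
  simp [this]

theorem ed_joinW_shift (h : EDBasic) {N m B : ℕ} (X : Fin m → ℤ → List Bool) (u c : Fin m → ℤ)
    (θ : ℤ) (hX : ∀ a t, (X a t).length = B) :
    editDist (joinW N X u c θ) (joinW N X (fun a => u a + 1) c θ) ≤ 2 * (m * B) := by
  unfold joinW
  set cell : ℕ → List Bool := fun i =>
    (List.finRange m).flatMap fun a => X a ((i : ℤ) + u a + c a * θ) with hcell
  have h1 : (fun i : ℕ => (List.finRange m).flatMap fun a => X a ((i : ℤ) + (u a + 1) + c a * θ)) =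
      fun i => cell (i + 1) := by
    funext i
    simp only [hcell]
    congr 1
    funext a
    congr 1
    push_cast
    ring
  rw [h1]
  have hlen : ∀ i, (cell i).length = m * B := fun i => length_cell _ (fun a => hX a _)
  cases N with
  | zero => simp [h.self]
  | succ n =>
    have e1 : (List.range (n + 1)).flatMap cell =
        cell 0 ++ (List.range n).flatMap (fun i => cell (i + 1)) := by
      rw [List.range_succ_eq_map, List.flatMap_cons, List.flatMap_map]
    have e2 : (List.range (n + 1)).flatMap (fun i => cell (i + 1)) =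
        (List.range n).flatMap (fun i => cell (i + 1)) ++ cell (n + 1) := by
      rw [List.range_succ, List.flatMap_append]
      simp
    rw [e1, e2]
    refine (h.shift _ _ _).trans ?_
    rw [hlen, hlen]
    omega

theorem ed_joinW_update (h : EDBasic) {N m : ℕ} (X : Fin m → ℤ → List Bool) (u c : Fin m → ℤ)
    (a : Fin m) (w w' : ℤ → List Bool) (n : ℕ) (hw : ∀ θ, editDist (w θ) (w' θ) ≤ n) (θ : ℤ) :
    editDist (joinW N (Function.update X a w) u c θ) (joinW N (Function.update X a w') u c θ) ≤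
      N * n := by
  unfold joinW
  refine (ed_flatMap_le h _ _ _).trans ?_
  have h1 : ∀ i : ℕ, editDist
      ((List.finRange m).flatMap fun b => Function.update X a w b ((i : ℤ) + u b + c b * θ))
      ((List.finRange m).flatMap fun b => Function.update X a w' b ((i : ℤ) + u b + c b * θ)) ≤
      n := by
    intro i
    refine (ed_flatMap_le h _ _ _).trans ?_
    have h2 : ((List.finRange m).map fun b => editDist
        (Function.update X a w b ((i : ℤ) + u b + c b * θ))
        (Function.update X a w' b ((i : ℤ) + u b + c b * θ))).sum =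
        ∑ b : Fin m, editDist (Function.update X a w b ((i : ℤ) + u b + c b * θ))
        (Function.update X a w' b ((i : ℤ) + u b + c b * θ)) := by
      rw [Fin.sum_univ_def]
    rw [h2, Finset.sum_eq_single a]
    · simp only [Function.update_self]; exact hw _
    · intro b _ hb
      simp only [Function.update_of_ne hb]
      exact h.self _
    · intro ha; exact absurd (Finset.mem_univ a) ha
  calc ((List.range N).map fun i : ℕ => editDist
      ((List.finRange m).flatMap fun b => Function.update X a w b ((i : ℤ) + u b + c b * θ))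
      ((List.finRange m).flatMap fun b =>
        Function.update X a w' b ((i : ℤ) + u b + c b * θ))).sum
      ≤ ((List.range N).map fun _ => n).sum := by
        apply List.sum_le_sum
        intro i _
        exact h1 i
    _ = N * n := by simp

theorem Per.modEq {G : Gadget} {q : ℕ} (h : Per G q) (e : G.E) {x y : ℤ} (hxy : x ≡ y [ZMOD q]) :
    G.V e x = G.V e y := by
  have hnat : ∀ (n : ℕ) (x : ℤ), G.V e (x + n * q) = G.V e x := by
    intro n
    induction n with
    | zero => intro x; simp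
    | succ n ih =>
      intro x
      have : x + ((n + 1 : ℕ) : ℤ) * q = (x + n * q) + q := by push_cast; ring
      rw [this, h, ih]
  obtain ⟨k, hk⟩ := (Int.modEq_iff_dvd.1 hxy)
  -- y - x = q * k
  rcases Int.eq_nat_or_neg k with ⟨n, rfl | rfl⟩
  · have : y = x + n * q := by linarith
    rw [this, hnat]
  · have : x = y + n * q := by linarith
    rw [this, hnat]

/-! ### joined words of a family of gadgets -/

section Main

variable {m : ℕ} (N : ℕ) (q' : Fin m → ℕ) [∀ a, NeZero (q' a)] (c : Fin m → ℤ)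
  (G : Fin m → Gadget)

/-- joined word for environment `e` and phases `u` -/
def WW (e : ∀ a, (G a).E) (u : ∀ a, ZMod (q' a)) (θ : ℤ) : List Bool :=
  joinW N (fun a => (G a).V (e a)) (fun a => ((u a).val : ℤ)) c θ

omit [∀ a, NeZero (q' a)] in
theorem WW_add (hper : ∀ a, Per (G a) (q' a)) (e : ∀ a, (G a).E) (u v : ∀ a, ZMod (q' a))
    (x : Fin m → ℤ) (hx : ∀ a, ((x a : ℤ) : ZMod (q' a)) = v a) (θ : ℤ)
    [∀ a, NeZero (q' a)] :
    WW N q' c G e (u + v) θ =
      joinW N (fun a => (G a).V (e a)) (fun a => ((u a).val : ℤ) + x a) c θ := by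
  unfold WW joinW
  congr 1
  funext i
  congr 1
  funext a
  apply (hper a).modEq
  have h1 : (((u + v) a).val : ℤ) ≡ ((u a).val : ℤ) + x a [ZMOD (q' a)] := by
    rw [← ZMod.intCast_eq_intCast_iff]
    push_cast
    rw [ZMod.natCast_zmod_val, ZMod.natCast_zmod_val, hx, Pi.add_apply]
  gcongr

end Main

theorem sum_update {m : ℕ} {E : Fin m → Type} [∀ a, Fintype (E a)] (a : Fin m)
    (F : (∀ a, E a) → ℝ) :
    (Fintype.card (E a) : ℝ) * ∑ e, F e = ∑ e, ∑ x : E a, F (Function.update e a x) := by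
  classical
  have h1 : ∑ e : (∀ a, E a), ∑ x : E a, F (Function.update e a x) =
      ∑ p : (∀ a, E a) × E a, F (Function.update p.1 a p.2) := by
    rw [Fintype.sum_prod_type]
  have h2 : (Fintype.card (E a) : ℝ) * ∑ e, F e = ∑ p : (∀ a, E a) × E a, F p.1 := by
    rw [Fintype.sum_prod_type]
    simp [Finset.mul_sum]
  rw [h1, h2]
  let φ : (∀ a, E a) × E a → (∀ a, E a) × E a := fun p => (Function.update p.1 a p.2, p.1 a)
  have hφ : Function.Involutive φ := by
    intro p
    simp [φ]
  refine Fintype.sum_equiv hφ.toPerm _ _ (fun p => ?_)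
  simp [Function.Involutive.toPerm, φ]

section Main2

variable {m : ℕ} (N : ℕ) (q' : Fin m → ℕ) [∀ a, NeZero (q' a)] (c : Fin m → ℤ)
  (G : Fin m → Gadget)

theorem stepG_sum (hper : ∀ a, Per (G a) (q' a)) (η : ℤ)
    (ρ : (ℤ → List Bool) → (ℤ → List Bool) → ℝ) :
    ∑ e : (stepG N q' c G).E, ρ ((stepG N q' c G).V e)
      (fun θ => (stepG N q' c G).V e (η + θ)) =
      ∑ e : (∀ a, (G a).E), ∑ u : (∀ a, ZMod (q' a)), ρ (WW N q' c G e u)
        (WW N q' c G e (u + fun a => ((c a * η : ℤ) : ZMod (q' a)))) := by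
  set v0 : (∀ a, ZMod (q' a)) := fun a => ((c a * η : ℤ) : ZMod (q' a)) with hv0
  have h1 : ∑ e : (∀ a, (G a).E), ∑ u : (∀ a, ZMod (q' a)), ρ (WW N q' c G e u)
      (WW N q' c G e (u + v0)) =
      ∑ p : (∀ a, (G a).E) × (∀ a, ZMod (q' a)),
        ρ (WW N q' c G p.1 p.2) (WW N q' c G p.1 (p.2 + v0)) := by
    rw [Fintype.sum_prod_type]
  rw [h1]
  let ψ : (stepG N q' c G).E ≃ (∀ a, (G a).E) × (∀ a, ZMod (q' a)) :=
    { toFun := fun e => (fun a => (e a).1, fun a => (e a).2)
      invFun := fun p a => (p.1 a, p.2 a)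
      left_inv := fun e => rfl
      right_inv := fun p => rfl }
  refine Fintype.sum_equiv ψ _ _ (fun e => ?_)
  have e1 : (stepG N q' c G).V e = WW N q' c G (ψ e).1 (ψ e).2 := rfl
  have e2 : (fun θ => (stepG N q' c G).V e (η + θ)) =
      WW N q' c G (ψ e).1 ((ψ e).2 + v0) := by
    funext θ
    rw [WW_add N q' c G hper (ψ e).1 (ψ e).2 v0 (fun a => c a * η) (fun a => rfl)]
    show joinW N (fun a => (G a).V (e a).1) (fun a => ((e a).2.val : ℤ)) c (η + θ) =
      joinW N (fun a => (G a).V (e a).1) (fun a => ((e a).2.val : ℤ) + c a * η) c θ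
    unfold joinW
    congr 1
    funext i
    congr 1
    funext a
    congr 1
    ring
  rw [e2, e1]

theorem stepG_card : (Fintype.card (stepG N q' c G).E : ℝ) =
    (Fintype.card (∀ a, (G a).E) : ℝ) * (Fintype.card (∀ a, ZMod (q' a)) : ℝ) := by
  have : Fintype.card (stepG N q' c G).E =
      Fintype.card ((∀ a, (G a).E) × (∀ a, ZMod (q' a))) :=
    Fintype.card_congr
      { toFun := fun e => (fun a => (e a).1, fun a => (e a).2)
        invFun := fun p a => (p.1 a, p.2 a)
        left_inv := fun e => rfl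
        right_inv := fun p => rfl }
  rw [this, Fintype.card_prod]
  push_cast
  ring

/-- transfer of the Fourier inequality to kernels -/
theorem fourier_transfer {α : Type} {ρ : α → α → ℝ} (hNeg : Neg ρ) (K1 K2 : ℝ)
    (v0 : ∀ a, ZMod (q' a))
    (H : ∀ g : (∀ a, ZMod (q' a)) → ℝ, ∑ u, (g u - g (u + v0)) ^ 2 ≤
        K1 * ∑ u, (g u - g (u + 1)) ^ 2 +
        K2 * ∑ a, (1 / (q' a : ℝ)) * ∑ z : ZMod (q' a),
          ∑ u, (g u - g (u + Pi.single a z)) ^ 2) (w : (∀ a, ZMod (q' a)) → α) :
    ∑ u, ρ (w u) (w (u + v0)) ≤ K1 * ∑ u, ρ (w u) (w (u + 1)) +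
        K2 * ∑ a, (1 / (q' a : ℝ)) * ∑ z : ZMod (q' a),
          ∑ u, ρ (w u) (w (u + Pi.single a z)) := by
  let S := Unit ⊕ (Unit ⊕ (Σ a : Fin m, ZMod (q' a)))
  let wt : S → ℝ := fun s => match s with
    | Sum.inl _ => -1
    | Sum.inr (Sum.inl _) => K1
    | Sum.inr (Sum.inr x) => K2 * (1 / (q' x.1 : ℝ))
  let σ : S → (∀ a, ZMod (q' a)) → (∀ a, ZMod (q' a)) := fun s u => match s with
    | Sum.inl _ => u + v0
    | Sum.inr (Sum.inl _) => u + 1
    | Sum.inr (Sum.inr x) => u + Pi.single x.1 x.2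
  have hS : ∀ Φ : (∀ a, ZMod (q' a)) → (∀ a, ZMod (q' a)) → ℝ,
      ∑ s, wt s * ∑ u, Φ u (σ s u) =
      - ∑ u, Φ u (u + v0) + (K1 * ∑ u, Φ u (u + 1) +
      K2 * ∑ a, (1 / (q' a : ℝ)) * ∑ z : ZMod (q' a),
        ∑ u, Φ u (u + Pi.single a z)) := by
    intro Φ
    rw [Fintype.sum_sum_type, Fintype.sum_sum_type, Fintype.sum_sigma]
    simp only [wt, σ, Finset.univ_unique, Finset.sum_singleton, neg_one_mul]
    congr 2
    rw [Finset.mul_sum]
    refine Finset.sum_congr rfl (fun a _ => ?_)
    rw [Finset.mul_sum, Finset.mul_sum]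
    refine Finset.sum_congr rfl (fun z _ => ?_)
    ring
  have h3 := neg_transfer hNeg wt σ (fun g => by
    rw [hS (fun u v => (g u - g v) ^ 2)]
    have := H g
    linarith) w
  rw [hS (fun u v => ρ (w u) (w v))] at h3
  linarith

/-- influence of one label -/
theorem label_bound (h1 : EDBasic) {B : ℕ} {b : ℝ} (hlen : ∀ a, Len (G a) B)
    (hper : ∀ a, Per (G a) (q' a)) (hP : ∀ a, Poin (G a) B b) {κ : ℝ}
    {ρ : (ℤ → List Bool) → (ℤ → List Bool) → ℝ} (hκ : 0 ≤ κ) (hNeg : Neg ρ)
    (hLip : Lip (N * (m * B)) κ ρ) (a : Fin m) (z : ZMod (q' a)) (u : ∀ a, ZMod (q' a)) :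
    ∑ e : (∀ a, (G a).E), ρ (WW N q' c G e u) (WW N q' c G e (u + Pi.single a z)) ≤
        (Fintype.card (∀ a, (G a).E) : ℝ) * (κ * (N * b)) := by
  classical
  have hca : (0 : ℝ) < (Fintype.card (G a).E : ℝ) := by
    exact_mod_cast Fintype.card_pos
  have h4 := sum_update (E := fun a => (G a).E) a
    (fun e => ρ (WW N q' c G e u) (WW N q' c G e (u + Pi.single a z)))
  have h5 : ∀ e : (∀ a, (G a).E), ∑ x : (G a).E, ρ (WW N q' c G (Function.update e a x) u)
      (WW N q' c G (Function.update e a x) (u + Pi.single a z)) ≤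
      (Fintype.card (G a).E : ℝ) * ((κ * N) * b) := by
    intro e
    -- context of label a
    let J : (ℤ → List Bool) → (ℤ → List Bool) := fun X θ =>
      joinW N (Function.update (fun b => (G b).V (e b)) a X) (fun b => ((u b).val : ℤ)) c θ
    have hJlen : ∀ w : ℤ → List Bool, (∀ θ, (w θ).length = B) →
        ∀ θ, (J w θ).length = N * (m * B) := by
      intro w hw θ
      refine length_joinW _ _ _ _ (fun b t => ?_)
      by_cases hb : b = a
      · subst hb; simp only [Function.update_self]; exact hw t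
      · simp only [Function.update_of_ne hb]; exact hlen b _ _
    have hJ1 : ∀ x : (G a).E, WW N q' c G (Function.update e a x) u = J ((G a).V x) := by
      intro x
      funext θ
      show joinW N (fun b => (G b).V (Function.update e a x b)) (fun b => ((u b).val : ℤ)) c θ =
        joinW N (Function.update (fun b => (G b).V (e b)) a ((G a).V x))
          (fun b => ((u b).val : ℤ)) c θ
      congr 1
      funext b
      by_cases hb : b = a
      · subst hb; simp
      · simp [Function.update_of_ne hb]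
    have hJ2 : ∀ x : (G a).E, WW N q' c G (Function.update e a x) (u + Pi.single a z) =
        J (fun θ => (G a).V x ((z.val : ℤ) + θ)) := by
      intro x
      funext θ
      rw [WW_add N q' c G hper (Function.update e a x) u (Pi.single a z)
        (Pi.single a (z.val : ℤ)) (fun b => by
          by_cases hb : b = a
          · subst hb; simp
          · simp [Pi.single_eq_of_ne hb])]
      show joinW N (fun b => (G b).V (Function.update e a x b))
          (fun b => ((u b).val : ℤ) + (Pi.single a (z.val : ℤ) : Fin m → ℤ) b) c θ =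
        joinW N (Function.update (fun b => (G b).V (e b)) a
          (fun θ => (G a).V x ((z.val : ℤ) + θ))) (fun b => ((u b).val : ℤ)) c θ
      unfold joinW
      congr 1
      funext i
      congr 1
      funext b
      by_cases hb : b = a
      · subst hb
        simp only [Function.update_self, Pi.single_eq_same]
        congr 1
        ring
      · simp only [Function.update_of_ne hb, Pi.single_eq_of_ne hb, add_zero]
    have h6 := hP a (κ * N) (fun w w' => ρ (J w) (J w')) (by positivity) (hNeg.comp J)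
      (fun w w' hw hw' n hn => by
        have := hLip (J w) (J w') (hJlen w hw) (hJlen w' hw') (N * n)
          (fun θ => ed_joinW_update h1 _ _ _ a w w' n hn θ)
        push_cast at this
        linarith) (z.val : ℤ)
    simp only [hJ1, hJ2]
    exact h6
  have h7 : (Fintype.card (G a).E : ℝ) *
      ∑ e : (∀ a, (G a).E), ρ (WW N q' c G e u) (WW N q' c G e (u + Pi.single a z)) ≤
      (Fintype.card (G a).E : ℝ) * ((Fintype.card (∀ a, (G a).E) : ℝ) * (κ * (N * b))) := by
    rw [h4]
    refine (Finset.sum_le_sum (fun e _ => h5 e)).trans (le_of_eq ?_)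
    rw [Finset.sum_const, nsmul_eq_mul]
    simp only [Finset.card_univ]
    ring
  exact le_of_mul_le_mul_left h7 hca

end Main2

/-- abstract assembly -/
theorem assembly {m : ℕ} (q' : Fin m → ℕ) [∀ a, NeZero (q' a)] {E1 Γ : Type} [Fintype E1]
    [Fintype Γ] (F : E1 → Γ → Γ → ℝ) (s0 s1 : Γ → Γ) (s : ∀ a, ZMod (q' a) → Γ → Γ)
    (K1 K2 x y : ℝ) (hK1 : 0 ≤ K1) (hK2 : 0 ≤ K2)
    (hF : ∀ e, ∑ u, F e u (s0 u) ≤ K1 * ∑ u, F e u (s1 u) +
        K2 * ∑ a, (1 / (q' a : ℝ)) * ∑ z : ZMod (q' a), ∑ u, F e u (s a z u))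
    (hB1 : ∀ e u, F e u (s1 u) ≤ x)
    (hB2 : ∀ (a : Fin m) (z : ZMod (q' a)) u, ∑ e, F e u (s a z u) ≤
      (Fintype.card E1 : ℝ) * y) :
    ∑ e, ∑ u, F e u (s0 u) ≤
      ((Fintype.card E1 : ℝ) * (Fintype.card Γ : ℝ)) * (K1 * x + K2 * (m * y)) := by
  have hA : ∑ e : E1, ∑ u : Γ, F e u (s1 u) ≤
      (Fintype.card E1 : ℝ) * ((Fintype.card Γ : ℝ) * x) := by
    calc ∑ e : E1, ∑ u : Γ, F e u (s1 u)
        ≤ ∑ e : E1, ∑ u : Γ, x :=
          Finset.sum_le_sum (fun e _ => Finset.sum_le_sum (fun u _ => hB1 e u))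
      _ = _ := by simp only [Finset.sum_const, nsmul_eq_mul, Finset.card_univ]
  have h8 : ∀ (a : Fin m) (z : ZMod (q' a)), ∑ e : E1, ∑ u : Γ, F e u (s a z u) ≤
      (Fintype.card Γ : ℝ) * ((Fintype.card E1 : ℝ) * y) := by
    intro a z
    rw [Finset.sum_comm]
    refine (Finset.sum_le_sum (fun u _ => hB2 a z u)).trans (le_of_eq ?_)
    simp only [Finset.sum_const, nsmul_eq_mul, Finset.card_univ]
  have h10 : ∀ a : Fin m, ∑ e : E1, (1 / (q' a : ℝ)) * ∑ z : ZMod (q' a),
      ∑ u : Γ, F e u (s a z u) ≤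
      (Fintype.card Γ : ℝ) * ((Fintype.card E1 : ℝ) * y) := by
    intro a
    rw [← Finset.mul_sum, Finset.sum_comm]
    have hqa : (0 : ℝ) < q' a := by
      have := NeZero.pos (q' a); exact_mod_cast this
    have h9 : ∑ z : ZMod (q' a), ∑ e : E1, ∑ u : Γ, F e u (s a z u) ≤
        (q' a : ℝ) * ((Fintype.card Γ : ℝ) * ((Fintype.card E1 : ℝ) * y)) := by
      refine (Finset.sum_le_sum (fun z _ => h8 a z)).trans (le_of_eq ?_)
      simp only [Finset.sum_const, nsmul_eq_mul, Finset.card_univ, ZMod.card]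
    rw [one_div, inv_mul_le_iff₀ hqa]
    exact h9
  have hB : ∑ e : E1, (∑ a, (1 / (q' a : ℝ)) * ∑ z : ZMod (q' a),
      ∑ u : Γ, F e u (s a z u)) ≤
      m * ((Fintype.card Γ : ℝ) * ((Fintype.card E1 : ℝ) * y)) := by
    rw [Finset.sum_comm]
    refine (Finset.sum_le_sum (fun a _ => h10 a)).trans (le_of_eq ?_)
    simp only [Finset.sum_const, nsmul_eq_mul, Finset.card_univ, Fintype.card_fin]
  have hC := Finset.sum_le_sum (fun e (_ : e ∈ (Finset.univ : Finset E1)) => hF e)
  rw [Finset.sum_add_distrib, ← Finset.mul_sum, ← Finset.mul_sum] at hC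
  have hD := mul_le_mul_of_nonneg_left hA hK1
  have hE := mul_le_mul_of_nonneg_left hB hK2
  refine (hC.trans (add_le_add hD hE)).trans (le_of_eq ?_)
  ring

theorem poinStep1 {m : ℕ} (N : ℕ) (q' : Fin m → ℕ) [∀ a, NeZero (q' a)] (c : Fin m → ℤ)
    (G : Fin m → Gadget) (h1 : EDBasic) {B : ℕ} {b : ℝ} (L T : ℕ) (hlen : ∀ a, Len (G a) B)
    (hper : ∀ a, Per (G a) (q' a)) (hP : ∀ a, Poin (G a) B b)
    (H : ∀ (η : ℤ) (g : (∀ a, ZMod (q' a)) → ℝ),
      ∑ u, (g u - g (u + fun a => ((c a * η : ℤ) : ZMod (q' a)))) ^ 2 ≤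
        (T : ℝ) ^ 2 * ∑ u, (g u - g (u + 1)) ^ 2 +
        (2 / L : ℝ) * ∑ a, (1 / (q' a : ℝ)) * ∑ z : ZMod (q' a),
          ∑ u, (g u - g (u + Pi.single a z)) ^ 2) :
    Poin (stepG N q' c G) (N * (m * B)) (T ^ 2 * (2 * (m * B)) + 2 / L * (m * (N * b))) := by
  intro κ ρ hκ hNeg hLip η
  rw [stepG_sum N q' c G hper η ρ, stepG_card]
  have hlenW : ∀ (e : ∀ a, (G a).E) (u : ∀ a, ZMod (q' a)) θ,
      (WW N q' c G e u θ).length = N * (m * B) :=
    fun e u θ => length_joinW _ _ _ _ (fun a t => hlen a _ _)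
  have hB1 : ∀ (e : ∀ a, (G a).E) (u : ∀ a, ZMod (q' a)),
      ρ (WW N q' c G e u) (WW N q' c G e (u + 1)) ≤ κ * (2 * (m * B)) := by
    intro e u
    have := hLip (WW N q' c G e u) (WW N q' c G e (u + 1)) (hlenW e u) (hlenW e _)
      (2 * (m * B)) (fun θ => by
        rw [WW_add N q' c G hper e u 1 (fun _ => 1) (fun a => by simp)]
        exact ed_joinW_shift h1 _ _ _ _ (fun a t => hlen a _ _))
    push_cast at this
    exact this
  have hlb2 : ∀ (a : Fin m) (z : ZMod (q' a)) (u : ∀ a, ZMod (q' a)),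
      ∑ e : (∀ a, (G a).E), ρ (WW N q' c G e u) (WW N q' c G e (u + Pi.single a z)) ≤
      (Fintype.card (∀ a, (G a).E) : ℝ) * (κ * (N * b)) := by
    intro a z u
    exact label_bound N q' c G h1 hlen hper hP hκ hNeg hLip a z u
  clear hLip
  have hfin := assembly (E1 := ∀ a, (G a).E) (Γ := ∀ a, ZMod (q' a)) q'
    (fun e u v => ρ (WW N q' c G e u) (WW N q' c G e v))
    (fun u => u + fun a => ((c a * η : ℤ) : ZMod (q' a))) (fun u => u + 1)
    (fun a z u => u + Pi.single a z) ((T : ℝ) ^ 2) (2 / L) (κ * (2 * (m * B)))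
    (κ * (N * b)) (by positivity) (by positivity)
    (fun e => by
      exact fourier_transfer q' hNeg _ _ _ (fun g => H η g) (fun u => WW N q' c G e u))
    (by exact hB1) (by exact hlb2)
  refine hfin.trans (le_of_eq ?_)
  ring

theorem poinStep (h1 : EDBasic) (h2 : FourierIneq) : PoinStep := by
  intro m N q p q' _ hq hp hq' hcop hpp c hc1 hc2 L T hL hT G B b hlen hper hP
  exact poinStep1 N q' c G h1 L T hlen hper hP
    (fun η g => h2 m q p q' hq hp hq' hcop hpp c hc1 hc2 L T hL hT η g)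

end Crest.Agent.H7
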