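import Crest.Agent.H7.Defs

/-!
# Row 210 (S0323), task T7a: `FarCore`
-/

set_option autoImplicit false

namespace Crest.Agent.H7

open Crest.GeometryTopology.EditDistance
open scoped BigOperators

namespace T7a

/-! ### splitting a word along a concatenation -/

lemma split_range (h : EDBasic) (n : ℕ) (C : ℕ → List Bool) (z : List Bool) :
    ∃ Z : ℕ → List Bool, z = (List.range (n + 1)).flatMap Z ∧
      ∑ i ∈ Finset.range (n + 1), editDist (C i) (Z i) ≤
        editDist ((List.range (n + 1)).flatMap C) z := by
  induction n generalizing z with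
  | zero =>
    refine ⟨fun _ => z, ?_, ?_⟩
    · simp
    · simp
  | succ n ih =>
    rw [List.range_succ (n := n + 1), List.flatMap_append]
    obtain ⟨z₁, z₂, hz, hle⟩ := h.split ((List.range (n + 1)).flatMap C) ([n + 1].flatMap C) z
    obtain ⟨Z, hZ, hZle⟩ := ih z₁
    refine ⟨fun i => if i = n + 1 then z₂ else Z i, ?_, ?_⟩
    · rw [hz, List.flatMap_append, hZ]
      congr 1
      · apply List.flatMap_congr
        intro i hi
        rw [List.mem_range] at hi
        rw [if_neg (by omega)]
      · simp
    · rw [Finset.sum_range_succ]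
      refine le_trans (add_le_add ?_ ?_) hle
      · refine le_trans (le_of_eq (Finset.sum_congr rfl ?_)) hZle
        intro i hi
        rw [Finset.mem_range] at hi
        beta_reduce
        rw [if_neg (by omega)]
      · simp

lemma split_range' (h : EDBasic) (n : ℕ) (hn : 0 < n) (C : ℕ → List Bool) (z : List Bool) :
    ∃ Z : ℕ → List Bool, z = (List.range n).flatMap Z ∧
      ∑ i ∈ Finset.range n, editDist (C i) (Z i) ≤
        editDist ((List.range n).flatMap C) z := by
  obtain ⟨n, rfl⟩ : ∃ j, n = j + 1 := ⟨n - 1, by omega⟩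
  exact split_range h n C z

/-! ### lengths and positions -/

lemma length_flatMap_range (n B : ℕ) (C : ℕ → List Bool) (hC : ∀ i, (C i).length = B) :
    ((List.range n).flatMap C).length = n * B := by
  induction n with
  | zero => simp
  | succ n ih =>
    rw [List.range_succ, List.flatMap_append, List.length_append, ih]
    simp [hC, Nat.succ_mul]

lemma flatMap_range_add (n l : ℕ) (C : ℕ → List Bool) :
    (List.range (n + l)).flatMap C =
      (List.range n).flatMap C ++ (List.range l).flatMap (fun j => C (n + j)) := by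
  rw [List.range_add, List.flatMap_append, List.flatMap_map]

/-- reindexing of a double concatenation -/
lemma flatMap_range_mul (N m : ℕ) (g : ℕ → List Bool) :
    (List.range N).flatMap (fun i => (List.range m).flatMap (fun a => g (i * m + a))) =
      (List.range (N * m)).flatMap g := by
  induction N with
  | zero => simp
  | succ N ih =>
    rw [List.range_succ, List.flatMap_append, ih, Nat.succ_mul, flatMap_range_add]
    simp

lemma flatMap_finRange (m : ℕ) (g : Fin m → List Bool) (g' : ℕ → List Bool)
    (hg : ∀ a : Fin m, g' a = g a) :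
    (List.finRange m).flatMap g = (List.range m).flatMap g' := by
  rw [← List.map_coe_finRange_eq_range, List.flatMap_map]
  apply List.flatMap_congr
  intro a _
  exact (hg a).symm

/-- a factor which is contained (by position) in another factor -/
lemma factor_of_factor (U x V A Mid C' : List Bool) (hW : U ++ x ++ V = A ++ Mid ++ C')
    (h1 : U.length ≤ A.length) (h2 : A.length + Mid.length ≤ U.length + x.length) :
    ∃ p s, x = p ++ (Mid ++ s) := by
  have hU : U <+: A := by
    apply List.prefix_of_prefix_length_le (l₃ := U ++ x ++ V) _ _ h1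
    · exact ⟨x ++ V, by simp⟩
    · exact ⟨Mid ++ C', by rw [hW]; simp⟩
  obtain ⟨p, rfl⟩ := hU
  have h3 : x ++ V = p ++ Mid ++ C' := by
    have : U ++ (x ++ V) = U ++ (p ++ Mid ++ C') := by
      simpa [List.append_assoc] using hW
    exact List.append_cancel_left this
  have h4 : p ++ Mid <+: x := by
    apply List.prefix_of_prefix_length_le (l₃ := x ++ V) _ _ _
    · exact ⟨C', by rw [h3]⟩
    · exact ⟨V, rfl⟩
    · simp only [List.length_append] at h1 h2 ⊢
      omega
  obtain ⟨s, hs⟩ := h4
  exact ⟨p, s, by rw [← hs]; simp⟩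

/-- a factor situated inside one block -/
lemma seg_factor (K B n : ℕ) (Y : ℕ → List Bool) (hY : ∀ i, (Y i).length = B) (hn : n < K)
    (P z Q : List Bool) (hW : (List.range K).flatMap Y = P ++ z ++ Q)
    (h1 : n * B ≤ P.length) (h2 : P.length + z.length ≤ (n + 1) * B) : z <:+: Y n := by
  obtain ⟨l, rfl⟩ : ∃ l, K = n + 1 + l := ⟨K - (n + 1), by omega⟩
  have hK : (List.range (n + 1 + l)).flatMap Y =
      (List.range n).flatMap Y ++ Y n ++ (List.range l).flatMap (fun j => Y (n + 1 + j)) := by
    rw [flatMap_range_add, List.range_succ, List.flatMap_append]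
    simp
  rw [hK] at hW
  obtain ⟨p, s, hps⟩ := factor_of_factor _ _ _ _ _ _ hW
    (by rw [length_flatMap_range n B Y hY]; exact h1)
    (by rw [length_flatMap_range n B Y hY, hY]; rw [Nat.succ_mul] at h2; exact h2)
  exact ⟨p, s, by rw [hps]; simp⟩

/-- cover a short factor by three consecutive blocks -/
lemma cover (K B : ℕ) (hB : 0 < B) (Y : ℕ → List Bool) (hY : ∀ i, (Y i).length = B)
    (P z Q : List Bool) (hW : (List.range K).flatMap Y = P ++ z ++ Q)
    (hz0 : 0 < z.length) (hz : z.length ≤ 2 * B) :
    ∃ s₀ s₁ s₂ : List Bool, z = s₀ ++ (s₁ ++ s₂) ∧ P.length / B < K ∧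
      s₀ <:+: Y (min (P.length / B) (K - 1)) ∧ s₁ <:+: Y (min (P.length / B + 1) (K - 1)) ∧
      s₂ <:+: Y (min (P.length / B + 2) (K - 1)) := by
  have hlen : P.length + z.length + Q.length = K * B := by
    have := congrArg List.length hW
    rw [length_flatMap_range K B Y hY] at this
    simp only [List.length_append] at this
    omega
  set n := P.length / B with hn
  have hn1 : n * B ≤ P.length := Nat.div_mul_le_self _ _
  have hn2 : P.length < (n + 1) * B := by
    rw [Nat.succ_mul]
    exact Nat.lt_div_mul_add hB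
  have hnK : n < K := by
    by_contra hcon
    have : K * B ≤ n * B := Nat.mul_le_mul_right B (by omega)
    omega
  set c := (n + 1) * B - P.length with hc
  refine ⟨z.take c, (z.drop c).take B, (z.drop c).drop B, ?_, hnK, ?_, ?_, ?_⟩
  · rw [List.take_append_drop, List.take_append_drop]
  · rw [min_eq_left (by omega)]
    refine seg_factor K B n Y hY hnK P (z.take c) (z.drop c ++ Q) ?_ hn1 ?_
    · rw [hW]
      simp only [List.append_assoc]
      rw [← List.append_assoc (z.take c), List.take_append_drop]
    · rw [List.length_take]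
      omega
  · by_cases hK1 : n + 1 < K
    · rw [min_eq_left (by omega)]
      by_cases hcz : c ≤ z.length
      · refine seg_factor K B (n + 1) Y hY hK1 (P ++ z.take c) ((z.drop c).take B)
          ((z.drop c).drop B ++ Q) ?_ ?_ ?_
        · rw [hW]
          simp only [List.append_assoc]
          rw [← List.append_assoc ((z.drop c).take B), List.take_append_drop,
            ← List.append_assoc (z.take c), List.take_append_drop]
        · rw [List.length_append, List.length_take]
          omega
        · rw [List.length_append, List.length_take, List.length_take]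
          rw [Nat.succ_mul (n + 1)]
          omega
      · rw [List.drop_eq_nil_of_le (by omega)]
        simp
    · have hK2 : K = n + 1 := by omega
      rw [hK2] at hlen
      rw [List.drop_eq_nil_of_le (by omega)]
      simp
  · by_cases hK1 : n + 2 < K
    · rw [min_eq_left (by omega)]
      by_cases hcz : c + B ≤ z.length
      · refine seg_factor K B (n + 2) Y hY hK1 (P ++ z.take c ++ (z.drop c).take B)
          ((z.drop c).drop B) Q ?_ ?_ ?_
        · rw [hW]
          simp only [List.append_assoc]
          rw [← List.append_assoc ((z.drop c).take B), List.take_append_drop,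
            ← List.append_assoc (z.take c), List.take_append_drop]
        · simp only [List.length_append, List.length_take, List.length_drop]
          rw [Nat.succ_mul (n + 1)]
          omega
        · simp only [List.length_append, List.length_take, List.length_drop]
          rw [Nat.succ_mul (n + 2), Nat.succ_mul (n + 1)]
          omega
      · rw [List.drop_drop, List.drop_eq_nil_of_le (by omega)]
        simp
    · have hK2 : K ≤ n + 2 := by omega
      have hK3 : K * B ≤ (n + 2) * B := Nat.mul_le_mul_right B hK2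
      rw [Nat.succ_mul (n + 1)] at hK3
      rw [List.drop_drop, List.drop_eq_nil_of_le (by omega)]
      simp

/-! ### one block -/

/-- the block `b` is matched (cost `< k`) with the factor `z` of `W`: it is not far from one of the
three blocks of `W` which meet `z`. -/
lemma block (h : EDBasic) (K B : ℕ) (k : ℝ) (hB : 0 < B) (hkB : k ≤ B) (Y : ℕ → List Bool)
    (hY : ∀ i, (Y i).length = B) (P z Q : List Bool)
    (hW : (List.range K).flatMap Y = P ++ z ++ Q) (b : List Bool) (hb : b.length = B)
    (hz : (editDist b z : ℝ) < k) :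
    ∃ n : ℕ, n < K ∧ ¬ Far B k b (Y n) ∧ P.length / B ≤ n ∧ n ≤ P.length / B + 2 := by
  have hd : editDist b z < B := by
    have : (editDist b z : ℝ) < B := lt_of_lt_of_le hz hkB
    exact_mod_cast this
  have hl1 := h.length_le b z
  have hl2 := h.length_le z b
  rw [h.symm z b] at hl2
  obtain ⟨s₀, s₁, s₂, hzs, hnK, h0, h1, h2⟩ :=
    cover K B hB Y hY P z Q hW (by omega) (by omega)
  generalize P.length / B = n₀ at hnK h0 h1 h2 ⊢
  obtain ⟨x₀, x', hb1, hle1⟩ := h.split s₀ (s₁ ++ s₂) b
  obtain ⟨x₁, x₂, hb2, hle2⟩ := h.split s₁ s₂ x'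
  rw [← hzs, h.symm z b] at hle1
  have hlen : x₀.length + x₁.length + x₂.length = B := by
    rw [← hb, hb1, hb2]
    simp only [List.length_append]
    omega
  have key : ∀ (x s : List Bool) (j : ℕ), j ≤ 2 → x <:+: b → B ≤ 3 * x.length →
      s <:+: Y (min (n₀ + j) (K - 1)) → editDist s x ≤ editDist b z →
      ∃ n : ℕ, n < K ∧ ¬ Far B k b (Y n) ∧ n₀ ≤ n ∧ n ≤ n₀ + 2 := by
    intro x s j hj hx hxl hs hed
    refine ⟨min (n₀ + j) (K - 1), by omega, ?_, by omega, by omega⟩
    intro hfar
    have := hfar x s hx hs hxl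
    rw [h.symm x s] at this
    have h' : (editDist s x : ℝ) ≤ editDist b z := by exact_mod_cast hed
    linarith
  rcases (by omega : B ≤ 3 * x₀.length ∨ B ≤ 3 * x₁.length ∨ B ≤ 3 * x₂.length) with hh | hh | hh
  · refine key x₀ s₀ 0 (by omega) ?_ hh h0 (by omega)
    exact ⟨[], x', by rw [hb1]; simp⟩
  · refine key x₁ s₁ 1 (by omega) ?_ hh h1 (by omega)
    exact ⟨x₀, x₂, by rw [hb1, hb2]; simp⟩
  · refine key x₂ s₂ 2 (by omega) ?_ hh h2 (by omega)
    exact ⟨x₀ ++ x₁, [], by rw [hb1, hb2]; simp⟩

/-! ### one cell -/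

lemma cell (h : EDBasic) (K m B : ℕ) (k : ℝ) (hm : 0 < m) (hB : 0 < B) (hk : 0 < k) (hkB : k ≤ B)
    (Y : ℕ → List Bool) (hY : ∀ i, (Y i).length = B) (P Yc Q : List Bool)
    (hW : (List.range K).flatMap Y = P ++ Yc ++ Q) (b : ℕ → List Bool)
    (hb : ∀ a, (b a).length = B)
    (hd : (editDist ((List.range m).flatMap b) Yc : ℝ) < m * k / 16) :
    ∃ (S : Finset (Fin m)) (n : Fin m → ℕ), 15 * m ≤ 16 * S.card ∧
      (∀ a ∈ S, n a < K ∧ ¬ Far B k (b a) (Y (n a))) ∧
      ∀ a ∈ S, ∀ a' ∈ S, 16 * n a ≤ 16 * n a' + 17 * m + 64 := by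
  classical
  obtain ⟨Z, hZ, hZle⟩ := split_range' h m hm b Yc
  set D := editDist ((List.range m).flatMap b) Yc with hD
  set S : Finset (Fin m) := Finset.univ.filter (fun a => (editDist (b a) (Z a) : ℝ) < k) with hS
  -- existence of the matched block
  have hex : ∀ a : Fin m, ∃ n : ℕ, a ∈ S → n < K ∧ ¬ Far B k (b a) (Y n) ∧
      (P ++ (List.range a).flatMap Z).length / B ≤ n ∧
      n ≤ (P ++ (List.range a).flatMap Z).length / B + 2 := by
    intro a
    by_cases ha : a ∈ S
    · have ha' : (editDist (b a) (Z a) : ℝ) < k := by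
        rw [hS, Finset.mem_filter] at ha
        exact ha.2
      obtain ⟨l, hl⟩ : ∃ l, m = (a : ℕ) + 1 + l := ⟨m - (a + 1), by omega⟩
      have hW' : (List.range K).flatMap Y = (P ++ (List.range a).flatMap Z) ++ Z a ++
          ((List.range l).flatMap (fun j => Z (a + 1 + j)) ++ Q) := by
        rw [hW, hZ]
        conv_lhs => rw [hl, flatMap_range_add, List.range_succ, List.flatMap_append]
        simp
      obtain ⟨n, hn⟩ := block h K B k hB hkB Y hY _ _ _ hW' (b a) (hb a) ha'
      exact ⟨n, fun _ => hn⟩
    · exact ⟨0, fun h' => absurd h' ha⟩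
  choose n hn using hex
  have hDm : 16 * D ≤ m * B := by
    have h1 : (16 * D : ℝ) ≤ m * B := by
      have : (m : ℝ) * k ≤ m * B := mul_le_mul_of_nonneg_left hkB (Nat.cast_nonneg m)
      linarith
    exact_mod_cast h1
  refine ⟨S, n, ?_, ?_, ?_⟩
  · -- cardinality
    have hcomp : ((Finset.univ.filter (fun a : Fin m => ¬ (editDist (b a) (Z a) : ℝ) < k)).card : ℝ)
        * k ≤ D := by
      calc ((Finset.univ.filter (fun a : Fin m => ¬ (editDist (b a) (Z a) : ℝ) < k)).card : ℝ) * k
          = ∑ a ∈ Finset.univ.filter (fun a : Fin m => ¬ (editDist (b a) (Z a) : ℝ) < k), k := by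
            rw [Finset.sum_const, nsmul_eq_mul]
        _ ≤ ∑ a ∈ Finset.univ.filter (fun a : Fin m => ¬ (editDist (b a) (Z a) : ℝ) < k),
              (editDist (b a) (Z a) : ℝ) := by
            apply Finset.sum_le_sum
            intro a ha
            rw [Finset.mem_filter] at ha
            exact not_lt.mp ha.2
        _ ≤ ∑ a : Fin m, (editDist (b a) (Z a) : ℝ) := by
            apply Finset.sum_le_sum_of_subset_of_nonneg (Finset.filter_subset _ _)
            intros
            positivity
        _ = ((∑ i ∈ Finset.range m, editDist (b i) (Z i) : ℕ) : ℝ) := by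
            rw [Finset.sum_range]
            push_cast
            rfl
        _ ≤ D := by exact_mod_cast hZle
    have hcard := Finset.card_filter_add_card_filter_not (s := (Finset.univ : Finset (Fin m)))
      (fun a : Fin m => (editDist (b a) (Z a) : ℝ) < k)
    rw [Finset.card_univ, Fintype.card_fin] at hcard
    rw [← hS] at hcard
    set T := (Finset.univ.filter (fun a : Fin m => ¬ (editDist (b a) (Z a) : ℝ) < k)).card with hT
    have h16 : 16 * (T : ℝ) * k < m * k := by
      have := lt_of_le_of_lt hcomp hd
      linarith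
    have h17 : 16 * (T : ℝ) < m := lt_of_mul_lt_mul_right h16 hk.le
    have h18 : 16 * T < m := by exact_mod_cast h17
    omega
  · intro a ha
    exact ⟨(hn a ha).1, (hn a ha).2.1⟩
  · intro a ha a' ha'
    obtain ⟨-, -, -, h1⟩ := hn a ha
    obtain ⟨-, -, h2, -⟩ := hn a' ha'
    have hlenYc : Yc.length ≤ m * B + D := by
      have := h.length_le ((List.range m).flatMap b) Yc
      rw [length_flatMap_range m B b hb] at this
      exact this
    have hlena : ((List.range a).flatMap Z).length ≤ Yc.length := by
      obtain ⟨l, hl⟩ : ∃ l, m = (a : ℕ) + l := ⟨m - a, by omega⟩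
      have : Yc = (List.range a).flatMap Z ++ (List.range l).flatMap (fun j => Z (a + j)) := by
        rw [hZ]
        conv_lhs => rw [hl, flatMap_range_add]
      rw [this, List.length_append]
      omega
    set p := (P ++ (List.range a).flatMap Z).length with hp
    set p' := (P ++ (List.range a').flatMap Z).length with hp'
    have hpp : 16 * p ≤ 16 * p' + 17 * (m * B) := by
      rw [hp, hp', List.length_append, List.length_append]
      omega
    have e1 : B * (n a) ≤ p + 2 * B := by
      calc B * (n a) ≤ B * (p / B + 2) := Nat.mul_le_mul_left B h1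
        _ = B * (p / B) + 2 * B := by ring
        _ ≤ p + 2 * B := by
          have := Nat.mul_div_le p B
          omega
    have e2 : p' < B * (n a' + 1) := by
      calc p' < B * (p' / B) + B := Nat.lt_mul_div_succ p' hB |>.trans_eq (by ring)
        _ ≤ B * (n a') + B := by
          have := Nat.mul_le_mul_left B h2
          omega
        _ = B * (n a' + 1) := by ring
    have e3 : B * (16 * n a) < B * (16 * n a' + 17 * m + 64) := by
      have : B * (16 * n a' + 17 * m + 64) = 16 * (B * (n a' + 1)) + 17 * (m * B) + 48 * B := by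
        ring
      rw [this]
      have h3 : B * (16 * n a) = 16 * (B * n a) := by ring
      rw [h3]
      omega
    exact (lt_of_mul_lt_mul_left e3 (Nat.zero_le B)).le

/-! ### finding a cell -/

lemma find_cell (h : EDBasic) (N M : ℕ) (hN : 24 ≤ N) (hM : 0 < M) (C : ℕ → List Bool)
    (hC : ∀ i, (C i).length = M) (x y U V : List Bool)
    (hW : U ++ x ++ V = (List.range N).flatMap C) (hx : N * M ≤ 3 * x.length) :
    ∃ (i : ℕ) (P Yc Q : List Bool), i < N ∧ y = P ++ Yc ++ Q ∧
      N * editDist (C i) Yc ≤ 4 * editDist x y := by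
  have hlen : U.length + x.length + V.length = N * M := by
    have := congrArg List.length hW
    rw [length_flatMap_range N M C hC] at this
    simp only [List.length_append] at this
    omega
  set i₀ := (U.length + M - 1) / M with hi₀
  set i₁ := (U.length + x.length) / M with hi₁
  have h0 : U.length ≤ i₀ * M := by
    have := Nat.lt_div_mul_add (a := U.length + M - 1) hM
    rw [← hi₀] at this
    omega
  have h0' : i₀ * M ≤ U.length + M - 1 := Nat.div_mul_le_self _ _
  have h1 : i₁ * M ≤ U.length + x.length := Nat.div_mul_le_self _ _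
  have h1' : U.length + x.length < i₁ * M + M := Nat.lt_div_mul_add hM
  have h1N : i₁ ≤ N := by
    by_contra hcon
    have := Nat.mul_le_mul_right M (by omega : N + 1 ≤ i₁)
    rw [Nat.succ_mul] at this
    omega
  have hn : N ≤ 4 * (i₁ - i₀) := by
    -- `3 (i₁ - i₀ + 2) M > N M`
    have h2 : N * M < (3 * (i₁ - i₀) + 6) * M := by
      have h3 : (3 * (i₁ - i₀) + 6) * M = 3 * (i₁ * M - i₀ * M) + 6 * M := by
        rw [Nat.add_mul, Nat.mul_assoc, Nat.sub_mul]
      rw [h3]
      omega
    have h4 : N < 3 * (i₁ - i₀) + 6 := lt_of_mul_lt_mul_right h2 (Nat.zero_le M)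
    omega
  obtain ⟨n, hn1⟩ : ∃ n, i₁ = i₀ + n := ⟨i₁ - i₀, by omega⟩
  obtain ⟨l, hl⟩ : ∃ l, N = i₀ + n + l := ⟨N - i₁, by omega⟩
  have hn0 : 0 < n := by omega
  have hW2 : U ++ x ++ V = (List.range i₀).flatMap C ++
      (List.range n).flatMap (fun j => C (i₀ + j)) ++
      (List.range l).flatMap (fun j => C (i₀ + n + j)) := by
    rw [hW]
    conv_lhs => rw [hl, flatMap_range_add, flatMap_range_add]
  obtain ⟨p, s, hps⟩ := factor_of_factor U x V _ _ _ hW2
    (by rw [length_flatMap_range i₀ M C hC]; exact h0)
    (by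
      rw [length_flatMap_range i₀ M C hC, length_flatMap_range n M _ (fun j => hC _),
        ← Nat.add_mul, ← hn1]
      exact h1)
  set Mid := (List.range n).flatMap (fun j => C (i₀ + j)) with hMid
  obtain ⟨y₁, y₂, hy, hle⟩ := h.split p (Mid ++ s) y
  obtain ⟨y₃, y₄, hy', hle'⟩ := h.split Mid s y₂
  rw [← hps] at hle
  obtain ⟨Z, hZ, hZle⟩ := split_range' h n hn0 (fun j => C (i₀ + j)) y₃
  rw [← hMid] at hZle
  -- pigeonhole
  obtain ⟨j, hj, hjle⟩ : ∃ j, j < n ∧ n * editDist (C (i₀ + j)) (Z j) ≤ editDist x y := by
    by_contra hcon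
    push Not at hcon
    have h5 : ∑ j ∈ Finset.range n, (editDist x y + 1) ≤
        ∑ j ∈ Finset.range n, n * editDist (C (i₀ + j)) (Z j) := by
      apply Finset.sum_le_sum
      intro j hj
      exact hcon j (Finset.mem_range.mp hj)
    rw [← Finset.mul_sum, Finset.sum_const, Finset.card_range, smul_eq_mul] at h5
    have h6 := le_of_mul_le_mul_left h5 hn0
    omega
  obtain ⟨r, hr⟩ : ∃ r, n = j + 1 + r := ⟨n - (j + 1), by omega⟩
  refine ⟨i₀ + j, y₁ ++ (List.range j).flatMap Z, Z j,
    (List.range r).flatMap (fun t => Z (j + 1 + t)) ++ y₄, by omega, ?_, ?_⟩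
  · rw [hy, hy', hZ]
    conv_lhs => rw [hr, flatMap_range_add, List.range_succ, List.flatMap_append]
    simp
  · calc N * editDist (C (i₀ + j)) (Z j) ≤ (4 * n) * editDist (C (i₀ + j)) (Z j) :=
        Nat.mul_le_mul_right _ (by omega)
      _ = 4 * (n * editDist (C (i₀ + j)) (Z j)) := by ring
      _ ≤ 4 * editDist x y := Nat.mul_le_mul_left 4 hjle

end T7a

theorem farCore (h1 : EDBasic) : FarCore := by
  intro N m B k hN hm hB hk hkB X Y hX hY R hR x' y' hx' hy' hxl hed
  classical
  have : NeZero m := ⟨by omega⟩
  -- flattened versions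
  set Xf : ℕ → ℕ → List Bool := fun i a => X i (Fin.ofNat m a) with hXf
  set Yf : ℕ → List Bool := fun n => Y (n / m) (Fin.ofNat m n) with hYf
  have hXW : ((List.range N).flatMap fun i => (List.finRange m).flatMap fun a => X i a) =
      (List.range N).flatMap fun i => (List.range m).flatMap (Xf i) := by
    apply List.flatMap_congr
    intro i _
    apply T7a.flatMap_finRange
    intro a
    simp [hXf]
  have hYW : ((List.range N).flatMap fun i => (List.finRange m).flatMap fun a => Y i a) =
      (List.range (N * m)).flatMap Yf := by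
    rw [← T7a.flatMap_range_mul]
    apply List.flatMap_congr
    intro i _
    apply T7a.flatMap_finRange
    intro a
    have e1 : (i * m + a) / m = i := by
      rw [mul_comm, Nat.mul_add_div hm, Nat.div_eq_of_lt a.2, add_zero]
    have e2 : Fin.ofNat m (i * m + a) = a := by
      apply Fin.ext
      simp only [Fin.val_ofNat]
      rw [Nat.mul_add_mod', Nat.mod_eq_of_lt a.2]
    simp only [hYf, e1, e2]
  rw [hXW] at hx'
  rw [hYW] at hy'
  obtain ⟨U, V, hUV⟩ := hx'
  obtain ⟨U', V', hUV'⟩ := hy'
  obtain ⟨i, P, Yc, Q, hiN, hyP, hle⟩ := T7a.find_cell h1 N (m * B) hN (Nat.mul_pos hm hB)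
    (fun i => (List.range m).flatMap (Xf i))
    (fun i => T7a.length_flatMap_range m B (Xf i) (fun a => hX _ _)) x' y' U V hUV hxl
  have hd : (editDist ((List.range m).flatMap (Xf i)) Yc : ℝ) < m * k / 16 := by
    have h2 : (N : ℝ) * editDist ((List.range m).flatMap (Xf i)) Yc ≤ 4 * editDist x' y' := by
      exact_mod_cast hle
    have hN0 : (0 : ℝ) < N := by
      have : 0 < N := by omega
      exact_mod_cast this
    have h3 : (N : ℝ) * editDist ((List.range m).flatMap (Xf i)) Yc < N * (m * k / 16) := by
      linarith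
    exact lt_of_mul_lt_mul_left h3 hN0.le
  obtain ⟨S, n, hS1, hS2, hS3⟩ := T7a.cell h1 (N * m) m B k hm hB hk hkB Yf (fun n => hY _ _)
    (U' ++ P) Yc (Q ++ V') (by rw [← hUV', hyP]; simp) (Xf i) (fun a => hX _ _) hd
  refine ⟨i, S, fun a => n a / m, fun a => Fin.ofNat m (n a), hiN, hS1, ?_, ?_⟩
  · intro a ha
    obtain ⟨h3, h4⟩ := hS2 a ha
    have h5 : n a / m < N := by
      rw [Nat.div_lt_iff_lt_mul hm]
      exact h3
    refine ⟨h5, ?_⟩
    by_contra hcon
    apply h4
    have h6 := hR i a (n a / m) (Fin.ofNat m (n a)) hiN h5 hcon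
    have h7 : Xf i a = X i a := by
      simp [hXf]
    rw [h7]
    exact h6
  · intro a ha a' ha'
    have h3 := hS3 a ha a' ha'
    have e : ∀ t : ℕ, t / m * m + ((Fin.ofNat m t : Fin m) : ℕ) = t := by
      intro t
      rw [Fin.val_ofNat]
      exact Nat.div_add_mod' t m
    rw [e, e]
    exact_mod_cast h3

end Crest.Agent.H7
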