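import Crest.Agent.H7.Defs

set_option autoImplicit false

namespace Crest.Agent.H7

open Crest.GeometryTopology.EditDistance
open scoped BigOperators

namespace T7b

lemma stepG_V (N m : ℕ) (q' : Fin m → ℕ) [∀ a, NeZero (q' a)] (c : Fin m → ℤ)
    (G : Fin m → Gadget) (e : (stepG N q' c G).E) (θ : ℤ) :
    (stepG N q' c G).V e θ = ((List.range N).flatMap fun i : ℕ =>
      (List.finRange m).flatMap fun a =>
        (G a).V (e a).1 ((i : ℤ) + ((e a).2.val : ℤ) + c a * θ)) := rfl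

end T7b

theorem sepStep (h : FarCore) : SepStep := by
  intro N m B k hN hm hB hk hkB q' q'' _ _ c c' G G' hG hG' hs e e' θ θ' x' y' hx' hy' hlen
  by_contra hlt
  push Not at hlt
  rw [T7b.stepG_V] at hx' hy'
  obtain ⟨i, S, i', a', hi, hS, hR, -⟩ := h N m B k hN (by omega) hB hk hkB
    (fun i a => (G a).V (e a).1 ((i : ℤ) + ((e a).2.val : ℤ) + c a * θ))
    (fun i a => (G' a).V (e' a).1 ((i : ℤ) + ((e' a).2.val : ℤ) + c' a * θ'))
    (fun i a => hG a _ _) (fun i a => hG' a _ _) (fun _ _ _ _ => False)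
    (fun i a i' a' _ _ _ => hs a a' _ _ _ _) x' y' hx' hy' hlen hlt
  have : 0 < S.card := by omega
  obtain ⟨a, ha⟩ := Finset.card_pos.1 this
  exact (hR a ha).2

theorem selfStep (h : FarCore) : SelfStep := by
  intro N m B k hN hm hB hk hkB hNm q p q' _ hq hp hq' hcop hcop' c hc1 hc0 G hG hself hsep
    e θ θ' hθ x' y' hx' hy' hlen
  by_contra hlt
  push Not at hlt
  rw [T7b.stepG_V] at hx' hy'
  obtain ⟨i, S, i', a', hi, hS, hR, hpos⟩ := h N m B k hN (by omega) hB hk hkB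
    (fun i a => (G a).V (e a).1 ((i : ℤ) + ((e a).2.val : ℤ) + c a * θ))
    (fun i a => (G a).V (e a).1 ((i : ℤ) + ((e a).2.val : ℤ) + c a * θ'))
    (fun i a => hG a _ _) (fun i a => hG a _ _)
    (fun i a i' a' => a = a' ∧
      ((i : ℤ) + ((e a).2.val : ℤ) + c a * θ) ≡ ((i' : ℤ) + ((e a).2.val : ℤ) + c a * θ')
        [ZMOD (q' a : ℕ)])
    (by
      intro i a i' a' _ _ hn
      by_cases haa : a = a'
      · subst haa
        exact hself a _ _ _ fun hmod => hn ⟨rfl, hmod⟩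
      · exact hsep a a' haa _ _ _ _) x' y' hx' hy' hlen hlt
  have hScard : 0 < S.card := by omega
  obtain ⟨s, hs⟩ := Finset.card_pos.1 hScard
  -- congruences
  have hmod : ∀ a ∈ S, ((q' a : ℕ) : ℤ) ∣ ((i' a : ℤ) - i) - c a * (θ - θ') := by
    intro a ha
    have h1 := (hR a ha).2.2.dvd
    have e1 : ((i' a : ℤ) - i) - c a * (θ - θ') =
        ((i' a : ℤ) + ((e a).2.val : ℤ) + c a * θ') - ((i : ℤ) + ((e a).2.val : ℤ) + c a * θ) := by
      ring
    rw [e1]
    exact h1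
  have hmodq : ∀ a ∈ S, (q : ℤ) ∣ ((i' a : ℤ) - i) - (θ - θ') := by
    intro a ha
    have h1 : (q : ℤ) ∣ ((i' a : ℤ) - i) - c a * (θ - θ') := by
      refine dvd_trans ?_ (hmod a ha)
      rw [hq']
      push_cast
      exact dvd_mul_right _ _
    have h2 : (q : ℤ) ∣ (c a - 1) := by
      have := (hc1 a).dvd
      rw [← neg_sub, dvd_neg]
      exact this
    have e1 : ((i' a : ℤ) - i) - (θ - θ') =
        (((i' a : ℤ) - i) - c a * (θ - θ')) + (c a - 1) * (θ - θ') := by ring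
    rw [e1]
    exact dvd_add h1 (Dvd.dvd.mul_right h2 _)
  have hmodp : ∀ a ∈ S, (p a : ℤ) ∣ ((i' a : ℤ) - i) := by
    intro a ha
    have h1 : (p a : ℤ) ∣ ((i' a : ℤ) - i) - c a * (θ - θ') := by
      refine dvd_trans ?_ (hmod a ha)
      rw [hq']
      push_cast
      exact dvd_mul_left _ _
    have h2 : (p a : ℤ) ∣ c a := by
      have := (hc0 a).dvd
      rwa [zero_sub, dvd_neg] at this
    have e1 : ((i' a : ℤ) - i) = (((i' a : ℤ) - i) - c a * (θ - θ')) + c a * (θ - θ') := by ring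
    rw [e1]
    exact dvd_add h1 (Dvd.dvd.mul_right h2 _)
  -- all the shifts agree
  have hle : ∀ a ∈ S, ∀ b ∈ S, (i' a : ℤ) ≤ i' b + 2 := by
    intro a ha b hb
    have h1 := hpos a ha b hb
    have ea : a' a = a := ((hR a ha).2.1).symm
    have eb : a' b = b := ((hR b hb).2.1).symm
    rw [ea, eb] at h1
    have h2 := b.2
    push_cast at h1
    by_contra hcon
    push Not at hcon
    have h3 : (i' b : ℤ) + 3 ≤ i' a := by omega
    have h4 : ((i' b : ℤ) + 3) * m ≤ i' a * m := by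
      apply mul_le_mul_of_nonneg_right h3
      positivity
    have h5 : ((b : ℕ) : ℤ) < m := by exact_mod_cast h2
    have h6 : (0 : ℤ) ≤ ((a : ℕ) : ℤ) := by positivity
    have h7 : (16 : ℤ) ≤ m := by exact_mod_cast hm
    nlinarith
  have heq : ∀ a ∈ S, (i' a : ℤ) = i' s := by
    intro a ha
    have h1 := hle a ha s hs
    have h2 := hle s hs a ha
    have h3 : (q : ℤ) ∣ (i' a : ℤ) - i' s := by
      have e1 : (i' a : ℤ) - i' s =
          (((i' a : ℤ) - i) - (θ - θ')) - (((i' s : ℤ) - i) - (θ - θ')) := by ring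
      rw [e1]
      exact dvd_sub (hmodq a ha) (hmodq s hs)
    by_contra hne
    have h4 : (i' a : ℤ) - i' s ≠ 0 := sub_ne_zero.2 hne
    have h5 := Int.natAbs_dvd_natAbs.2 h3
    have h6 := Nat.le_of_dvd (Int.natAbs_pos.2 h4) h5
    simp only [Int.natAbs_natCast] at h6
    omega
  -- the common shift
  set t : ℤ := (i' s : ℤ) - i with ht
  have ht0 : t ≠ 0 := by
    intro h0
    have h1 := hmodq s hs
    rw [← ht, h0, zero_sub, dvd_neg] at h1
    apply hθ
    refine (Int.modEq_iff_dvd.2 ?_)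
    rw [← neg_sub, dvd_neg]
    exact h1
  have hdvd : ∀ a ∈ S, p a ∣ t.natAbs := by
    intro a ha
    have h1 := hmodp a ha
    rw [heq a ha, ← ht] at h1
    exact Int.natCast_dvd.1 h1
  have hprod : ∏ a ∈ S, p a ∣ t.natAbs := by
    refine Finset.prod_dvd_of_isRelPrime ?_ hdvd
    intro a _ b _ hab
    exact Nat.coprime_iff_isRelPrime.1 (hcop' a b hab)
  have hlow : 2 ^ S.card ≤ ∏ a ∈ S, p a := by
    calc 2 ^ S.card = ∏ a ∈ S, 2 := by simp
      _ ≤ ∏ a ∈ S, p a := Finset.prod_le_prod' fun a _ => hp a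
  have hup : t.natAbs < N := by
    have h1 := (hR s hs).1
    omega
  have h2 : 2 ^ S.card < N :=
    (hlow.trans (Nat.le_of_dvd (Int.natAbs_pos.2 ht0) hprod)).trans_lt hup
  have h3 : 2 ^ (2 * S.card) < 2 ^ m := by
    calc 2 ^ (2 * S.card) = (2 ^ S.card) ^ 2 := by rw [← pow_mul]; congr 1; ring
      _ < N ^ 2 := Nat.pow_lt_pow_left h2 (by norm_num)
      _ ≤ 2 ^ m := hNm
  have h4 : 2 * S.card < m := (Nat.pow_lt_pow_iff_right (by norm_num)).1 h3
  omega

end Crest.Agent.H7
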