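import Crest.Agent.H7.Defs

set_option autoImplicit false

namespace Crest.Agent.H7
namespace T8

open Crest.GeometryTopology.EditDistance
open scoped BigOperators

variable {m : ℕ}

/-! ### primes -/

/-- the primes used at level `l` -/
noncomputable def pr (l : ℕ) (a : Fin m) : ℕ := Nat.nth Nat.Prime (l * m + a + 2)

lemma pr_prime (l : ℕ) (a : Fin m) : (pr l a).Prime := Nat.prime_nth_prime _

lemma pr_ge (l : ℕ) (a : Fin m) : 4 ≤ pr l a := by
  unfold pr
  have := Nat.add_two_le_nth_prime (l * m + a + 2)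
  omega

lemma pr_inj {l l' : ℕ} {a a' : Fin m} (h : pr l a = pr l' a') : l = l' ∧ a = a' := by
  have h1 := Nat.nth_injective Nat.infinite_setOfPred_prime h
  have h2 : l * m + (a : ℕ) = l' * m + (a' : ℕ) := by omega
  have hm : 0 < m := a.pos
  have h3 : l = l' := by
    have e1 : (l * m + (a : ℕ)) / m = l := by
      rw [mul_comm, Nat.mul_add_div hm, Nat.div_eq_of_lt a.2, add_zero]
    have e2 : (l' * m + (a' : ℕ)) / m = l' := by
      rw [mul_comm, Nat.mul_add_div hm, Nat.div_eq_of_lt a'.2, add_zero]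
    rw [← e1, ← e2, h2]
  subst h3
  exact ⟨rfl, Fin.ext (by omega)⟩

lemma pr_coprime {l l' : ℕ} {a a' : Fin m} (h : ¬ (l = l' ∧ a = a')) :
    Nat.Coprime (pr l a) (pr l' a') :=
  (Nat.coprime_primes (pr_prime l a) (pr_prime l' a')).2 fun h' => h (pr_inj h')

lemma pr_le {k₀ : ℕ} (hk : ∀ k : ℕ, k₀ ≤ k → Nat.nth Nat.Prime k ≤ k ^ 2) {L : ℕ}
    (hL : k₀ ≤ L * m + 2) {l : ℕ} (hl : l < L) (a : Fin m) : pr l a ≤ (L * m + 2) ^ 2 := by
  refine le_trans ?_ (hk _ hL)
  unfold pr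
  apply (Nat.nth_monotone Nat.infinite_setOfPred_prime)
  have : (l + 1) * m ≤ L * m := Nat.mul_le_mul_right _ hl
  have ha := a.2
  nlinarith

/-! ### moduli -/

/-- modulus of a path -/
noncomputable def q : List (Fin m) → ℕ
  | [] => 3
  | a :: π => q π * pr π.length a

lemma q_pos : ∀ π : List (Fin m), 0 < q π
  | [] => by simp [q]
  | a :: π => by
    have h1 := q_pos π
    have h2 := (pr_prime π.length a).pos
    exact Nat.mul_pos h1 h2

instance (π : List (Fin m)) : NeZero (q π) := ⟨(q_pos π).ne'⟩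

lemma three_le_q : ∀ π : List (Fin m), 3 ≤ q π
  | [] => by simp [q]
  | a :: π => by
    have h1 := three_le_q π
    have h2 := (pr_prime π.length a).pos
    exact h1.trans (Nat.le_mul_of_pos_right _ h2)

lemma q_coprime : ∀ (π : List (Fin m)) (l : ℕ) (a : Fin m), π.length ≤ l →
    Nat.Coprime (q π) (pr l a)
  | [], l, a, _ => by
    have h := pr_ge l a
    refine (Nat.coprime_primes Nat.prime_three (pr_prime l a)).2 ?_
    omega
  | b :: π, l, a, h => by
    have h' : π.length + 1 ≤ l := by simpa using h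
    refine Nat.Coprime.mul_left (q_coprime π l a (by omega)) (pr_coprime ?_)
    rintro ⟨h1, -⟩
    omega

lemma q_le {P L : ℕ} (hP : ∀ l < L, ∀ a : Fin m, pr l a ≤ P) :
    ∀ π : List (Fin m), π.length ≤ L → q π ≤ 3 * P ^ π.length
  | [], _ => by simp [q]
  | a :: π, h => by
    have h' : π.length + 1 ≤ L := by simpa using h
    have h1 := q_le hP π (by omega)
    have h2 := hP π.length (by omega) a
    calc q (a :: π) = q π * pr π.length a := rfl
      _ ≤ (3 * P ^ π.length) * P := Nat.mul_le_mul h1 h2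
      _ = 3 * P ^ (a :: π).length := by simp [pow_succ, mul_assoc]

lemma exists_c (π : List (Fin m)) (a : Fin m) :
    ∃ c : ℤ, c ≡ 1 [ZMOD (q π : ℕ)] ∧ c ≡ 0 [ZMOD (pr π.length a : ℕ)] := by
  obtain ⟨k, h1, h2⟩ := Nat.chineseRemainder (q_coprime π π.length a le_rfl) 1 0
  refine ⟨k, ?_, ?_⟩
  · exact_mod_cast (Int.natCast_modEq_iff.2 h1)
  · exact_mod_cast (Int.natCast_modEq_iff.2 h2)

/-- speeds -/
noncomputable def c (π : List (Fin m)) (a : Fin m) : ℤ := (exists_c π a).choose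

lemma c_one (π : List (Fin m)) (a : Fin m) : c π a ≡ 1 [ZMOD (q π : ℕ)] :=
  (exists_c π a).choose_spec.1

lemma c_zero (π : List (Fin m)) (a : Fin m) : c π a ≡ 0 [ZMOD (pr π.length a : ℕ)] :=
  (exists_c π a).choose_spec.2

/-! ### the gadgets -/

/-- number of a pair (path, phase) -/
def enc (Q : ℕ) (π : List (Fin m)) (x : ℕ) : ℕ := Nat.ofDigits m (π.map Fin.val) * Q + x

lemma enc_inj {Q : ℕ} (hm : 1 < m) {π π' : List (Fin m)} {x x' : ℕ}
    (hl : π.length = π'.length) (hx : x < Q) (hx' : x' < Q) (h : enc Q π x = enc Q π' x') :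
    π = π' ∧ x = x' := by
  have hQ : 0 < Q := by omega
  unfold enc at h
  have e1 : (Nat.ofDigits m (π.map Fin.val) * Q + x) / Q = Nat.ofDigits m (π.map Fin.val) := by
    rw [mul_comm, Nat.mul_add_div hQ, Nat.div_eq_of_lt hx, add_zero]
  have e2 : (Nat.ofDigits m (π'.map Fin.val) * Q + x') / Q = Nat.ofDigits m (π'.map Fin.val) := by
    rw [mul_comm, Nat.mul_add_div hQ, Nat.div_eq_of_lt hx', add_zero]
  have h3 : Nat.ofDigits m (π.map Fin.val) = Nat.ofDigits m (π'.map Fin.val) := by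
    rw [← e1, ← e2, h]
  have h4 : π.map Fin.val = π'.map Fin.val := by
    refine Nat.ofDigits_inj_of_len_eq hm (by simpa using hl) ?_ ?_ h3
    · intro y hy
      obtain ⟨z, -, rfl⟩ := List.mem_map.1 hy
      exact z.2
    · intro y hy
      obtain ⟨z, -, rfl⟩ := List.mem_map.1 hy
      exact z.2
  refine ⟨List.map_injective_iff.2 Fin.val_injective h4, ?_⟩
  rw [h3] at h
  omega

lemma enc_lt {Q : ℕ} (hm : 1 < m) {π : List (Fin m)} {x : ℕ} (hx : x < Q) :
    enc Q π x < m ^ π.length * Q := by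
  unfold enc
  have h1 : Nat.ofDigits m (π.map Fin.val) < m ^ (π.map Fin.val).length := by
    refine Nat.ofDigits_lt_base_pow_length hm ?_
    intro y hy
    obtain ⟨z, -, rfl⟩ := List.mem_map.1 hy
    exact z.2
  rw [List.length_map] at h1
  calc Nat.ofDigits m (π.map Fin.val) * Q + x
      < Nat.ofDigits m (π.map Fin.val) * Q + Q := by omega
    _ = (Nat.ofDigits m (π.map Fin.val) + 1) * Q := by ring
    _ ≤ m ^ π.length * Q := Nat.mul_le_mul_right _ h1

/-- phase reduced mod `n` as natural number -/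
def red (n : ℕ) (θ : ℤ) : ℕ := (θ % (n : ℤ)).toNat

lemma red_lt {n : ℕ} (hn : 0 < n) (θ : ℤ) : red n θ < n := by
  unfold red
  have h1 := Int.emod_nonneg θ (by omega : (n : ℤ) ≠ 0)
  have h2 := Int.emod_lt_of_pos θ (by omega : (0 : ℤ) < n)
  omega

lemma red_eq {n : ℕ} (hn : 0 < n) {θ θ' : ℤ} : red n θ = red n θ' ↔ θ ≡ θ' [ZMOD n] := by
  unfold red Int.ModEq
  have h1 := Int.emod_nonneg θ (by omega : (n : ℤ) ≠ 0)
  have h2 := Int.emod_nonneg θ' (by omega : (n : ℤ) ≠ 0)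
  omega

/-- the gadgets -/
noncomputable def gad (N Q : ℕ) (code : ℕ → List Bool) : ℕ → List (Fin m) → Gadget
  | 0, π => ⟨Unit, fun _ θ => code (enc Q π (red (q π) θ))⟩
  | j + 1, π => stepG N (fun a => q (a :: π)) (c π) (fun a => gad N Q code j (a :: π))

/-! ### one step -/

lemma joinW_length (N : ℕ) {B : ℕ} (X : Fin m → ℤ → List Bool) (u c : Fin m → ℤ) (θ : ℤ)
    (h : ∀ a z, (X a z).length = B) : (joinW N X u c θ).length = N * (m * B) := by
  unfold joinW
  simp [List.length_flatMap, h]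

lemma per_mul {G : Gadget} {n : ℕ} (h : Per G n) (e : G.E) (θ : ℤ) (k : ℤ) :
    G.V e (θ + n * k) = G.V e θ := by
  induction k using Int.induction_on with
  | zero => simp
  | succ i ih =>
    rw [← ih, ← h e (θ + n * i)]
    congr 1
    ring
  | pred i ih =>
    rw [← ih, ← h e (θ + n * (-i - 1))]
    congr 1
    ring

lemma per_modEq {G : Gadget} {n : ℕ} (h : Per G n) (e : G.E) {θ θ' : ℤ}
    (hθ : θ ≡ θ' [ZMOD n]) : G.V e θ = G.V e θ' := by
  obtain ⟨k, hk⟩ := hθ.dvd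
  have : θ' = θ + n * k := by linarith
  rw [this, per_mul h]

/-- properties at height `j` -/
structure Good (m N Q L : ℕ) (code : ℕ → List Bool) (j B : ℕ) (b k : ℝ) : Prop where
  len : ∀ π : List (Fin m), Len (gad N Q code j π) B
  per : ∀ π : List (Fin m), Per (gad N Q code j π) (q π)
  poin : ∀ π : List (Fin m), π.length + j = L → Poin (gad N Q code j π) B b
  self : ∀ π : List (Fin m), π.length + j = L → Self B k (q π) (gad N Q code j π)
  sep : ∀ π π' : List (Fin m), π.length + j = L → π'.length + j = L → π ≠ π' →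
    Sep B k (gad N Q code j π) (gad N Q code j π')

lemma poin_mono {G : Gadget} {B : ℕ} {b b' : ℝ} (h : Poin G B b) (hb : b ≤ b') : Poin G B b' := by
  intro κ ρ hκ hn hl η
  refine (h κ ρ hκ hn hl η).trans ?_
  have : (0 : ℝ) ≤ (Fintype.card G.E : ℝ) := by positivity
  gcongr

lemma good_zero (h0 : EDBasic) {N Q L B : ℕ} {code : ℕ → List Bool} (hm : 1 < m)
    (hQ : ∀ π : List (Fin m), π.length ≤ L → q π ≤ Q) {M : ℕ} (hM : m ^ L * Q ≤ M)
    (hlen : ∀ k, (code k).length = B)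
    (hfar : ∀ k k', k < M → k' < M → k ≠ k' → Far B 1 (code k) (code k')) :
    Good m N Q L code 0 B B 1 := by
  have hx : ∀ (π : List (Fin m)) (θ : ℤ), π.length ≤ L → red (q π) θ < Q := fun π θ h =>
    (red_lt (q_pos π) θ).trans_le (hQ π h)
  have hlt : ∀ (π : List (Fin m)) (θ : ℤ), π.length = L → enc Q π (red (q π) θ) < M :=
    fun π θ h => by
      have := enc_lt (π := π) hm (hx π θ h.le)
      rw [h] at this
      exact this.trans_le hM
  refine ⟨?_, ?_, ?_, ?_, ?_⟩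
  · intro π e θ
    exact hlen _
  · intro π e θ
    show code _ = code _
    congr 2
    rw [red_eq (q_pos π)]
    simp [Int.ModEq]
  · intro π hπ κ ρ hκ hn hl η
    have key : ∀ e, ρ ((gad N Q code 0 π).V e) (fun θ => (gad N Q code 0 π).V e (η + θ)) ≤
        κ * B := by
      intro e
      refine hl _ _ (fun θ => hlen _) (fun θ => hlen _) B ?_
      intro θ
      refine (h0.le_length _ _ ?_).trans ?_
      · exact (hlen _).trans (hlen _).symm
      · exact (hlen _).le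
    calc _ ≤ ∑ e : (gad N Q code 0 π).E, κ * B := Finset.sum_le_sum fun e _ => key e
      _ = _ := by simp
  · intro π hπ e θ θ' hθ
    have hl : π.length = L := by simpa using hπ
    refine hfar _ _ (hlt π θ hl) (hlt π θ' hl) ?_
    intro h
    have := (enc_inj hm rfl (hx π θ hl.le) (hx π θ' hl.le) h).2
    exact hθ ((red_eq (q_pos π)).1 this)
  · intro π π' hπ hπ' hne e e' θ θ'
    have hl : π.length = L := by simpa using hπ
    have hl' : π'.length = L := by simpa using hπ'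
    refine hfar _ _ (hlt π θ hl) (hlt π' θ' hl') ?_
    intro h
    exact hne (enc_inj hm (hl.trans hl'.symm) (hx π θ hl.le) (hx π' θ' hl'.le) h).1

lemma good_step (h3 : PoinStep) (h4 : SepStep) (h5 : SelfStep) {N Q L P T j B : ℕ}
    {code : ℕ → List Bool} {b k b' : ℝ} (hN : 24 ≤ N) (hm : 16 ≤ m) (hNm : N ^ 2 ≤ 2 ^ m)
    (hP : ∀ l < L, ∀ a : Fin m, pr l a ≤ P) (hP1 : 1 ≤ P) (hT : 3 * P ^ (2 * L) ≤ T)
    (hL : 0 < L) (hB : 0 < B) (hk : 0 < k) (hkB : k ≤ B)
    (hb' : (T : ℝ) ^ 2 * (2 * (m * B)) + 2 / L * (m * (N * b)) ≤ b')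
    (h : Good m N Q L code j B b k) :
    Good m N Q L code (j + 1) (N * (m * B)) b' (N * (m * k) / 64) := by
  have hq : ∀ (π : List (Fin m)) (a : Fin m), q (a :: π) = q π * pr π.length a := fun π a => rfl
  have hcop : ∀ (π : List (Fin m)) (a : Fin m), Nat.Coprime (q π) (pr π.length a) :=
    fun π a => q_coprime π _ a le_rfl
  have hcop' : ∀ (π : List (Fin m)) (a a' : Fin m), a ≠ a' →
      Nat.Coprime (pr π.length a) (pr π.length a') := fun π a a' hne =>
    pr_coprime fun h => hne h.2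
  refine ⟨?_, ?_, ?_, ?_, ?_⟩
  · intro π e θ
    exact joinW_length _ _ _ _ _ fun a z => h.len _ _ _
  · intro π e θ
    show joinW _ _ _ _ _ = joinW _ _ _ _ _
    unfold joinW
    congr 1
    funext i
    congr 1
    funext a
    refine per_modEq (h.per (a :: π)) _ ?_
    have h1 := (c_zero π a).dvd
    rw [zero_sub, dvd_neg] at h1
    have h2 : ((q (a :: π) : ℕ) : ℤ) ∣ c π a * (q π : ℕ) := by
      rw [hq, Nat.cast_mul, mul_comm]
      exact mul_dvd_mul h1 dvd_rfl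
    refine (Int.modEq_iff_dvd.2 ?_)
    obtain ⟨d, hd⟩ := h2
    refine ⟨-d, ?_⟩
    rw [mul_neg, ← hd]
    ring
  · intro π hπ
    refine poin_mono ?_ hb'
    refine h3 m N (q π) (pr π.length) (fun a => q (a :: π)) (q_pos π)
      (fun a => (pr_prime _ a).pos) (hq π) (hcop π) (hcop' π) (c π) (c_one π) (c_zero π) L T hL
      ?_ (fun a => gad N Q code j (a :: π)) B b (fun a => h.len _) (fun a => h.per _) ?_
    · intro K hK
      refine le_trans ?_ hT
      have h1 := q_le hP π (by omega)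
      have h2 : ∏ a ∈ K, pr π.length a ≤ P ^ L := by
        calc ∏ a ∈ K, pr π.length a ≤ ∏ a ∈ K, P :=
              Finset.prod_le_prod' fun a _ => hP _ (by omega) a
          _ = P ^ K.card := by simp
          _ ≤ P ^ L := Nat.pow_le_pow_right hP1 hK.le
      calc q π * ∏ a ∈ K, pr π.length a ≤ (3 * P ^ π.length) * P ^ L := Nat.mul_le_mul h1 h2
        _ ≤ (3 * P ^ L) * P ^ L := by
            refine Nat.mul_le_mul_right _ (Nat.mul_le_mul_left _ (Nat.pow_le_pow_right hP1 ?_))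
            omega
        _ = 3 * P ^ (2 * L) := by ring
    · intro a
      exact h.poin _ (by simp; omega)
  · intro π hπ
    refine h5 N m B k hN hm hB hk hkB hNm (q π) (pr π.length) (fun a => q (a :: π))
      (three_le_q π) (fun a => (pr_prime _ a).two_le) (hq π) (hcop π) (hcop' π) (c π)
      (c_one π) (c_zero π) (fun a => gad N Q code j (a :: π)) (fun a => h.len _) ?_ ?_
    · intro a
      exact h.self _ (by simp; omega)
    · intro a a' hne
      refine h.sep _ _ (by simp; omega) (by simp; omega) ?_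
      intro hh
      exact hne (List.cons.inj hh).1
  · intro π π' hπ hπ' hne
    refine h4 N m B k hN hm hB hk hkB (fun a => q (a :: π)) (fun a => q (a :: π')) (c π) (c π')
      (fun a => gad N Q code j (a :: π)) (fun a => gad N Q code j (a :: π'))
      (fun a => h.len _) (fun a => h.len _) ?_
    intro a a'
    refine h.sep _ _ (by simp; omega) (by simp; omega) ?_
    intro hh
    exact hne (List.cons.inj hh).2

/-! ### iteration -/

lemma good_all (h3 : PoinStep) (h4 : SepStep) (h5 : SelfStep) {N Q L P T B₀ : ℕ}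
    {code : ℕ → List Bool} (hN : 24 ≤ N) (hm : 16 ≤ m) (hNm : N ^ 2 ≤ 2 ^ m)
    (hP : ∀ l < L, ∀ a : Fin m, pr l a ≤ P) (hP1 : 1 ≤ P) (hT : 3 * P ^ (2 * L) ≤ T)
    (hL : 4 ≤ L) (hB₀ : 0 < B₀)
    (hTN : 4 * (T : ℝ) ^ 2 ≤ N * (4 / L : ℝ) ^ L)
    (h : Good m N Q L code 0 B₀ B₀ 1) :
    ∀ j ≤ L, Good m N Q L code j ((N * m) ^ j * B₀)
      (((N : ℝ) * m) ^ j * B₀ * (4 / L : ℝ) ^ j) (((N : ℝ) * m / 64) ^ j) := by
  intro j
  induction j with
  | zero =>
    intro _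
    simpa using h
  | succ j ih =>
    intro hj
    have h1 := ih (by omega)
    have hNr : (24 : ℝ) ≤ N := by exact_mod_cast hN
    have hmr : (16 : ℝ) ≤ m := by exact_mod_cast hm
    have hLr : (4 : ℝ) ≤ L := by exact_mod_cast hL
    have hB₀r : (1 : ℝ) ≤ B₀ := by exact_mod_cast hB₀
    have hBpos : 0 < (N * m) ^ j * B₀ := by positivity
    have h2 := good_step h3 h4 h5 (T := T)
      (b' := ((N : ℝ) * m) ^ (j + 1) * B₀ * (4 / L : ℝ) ^ (j + 1)) hN hm hNm hP hP1 hT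
      (by omega) hBpos (by positivity) ?_ ?_ h1
    · convert h2 using 1
      · ring
      · ring
    · push_cast
      calc ((N : ℝ) * m / 64) ^ j ≤ ((N : ℝ) * m) ^ j := by
            gcongr
            have : (0 : ℝ) ≤ (N : ℝ) * m := by positivity
            linarith
        _ ≤ ((N : ℝ) * m) ^ j * B₀ := le_mul_of_one_le_right (by positivity) hB₀r
    · push_cast
      have hx0 : (0 : ℝ) < 4 / L := by positivity
      have hx1 : (4 : ℝ) / L ≤ 1 := by
        rw [div_le_one (by positivity)]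
        exact hLr
      have e1 : (4 / L : ℝ) ^ L ≤ (4 / L : ℝ) ^ (j + 1) :=
        pow_le_pow_of_le_one hx0.le hx1 hj
      have e2 : 4 * (T : ℝ) ^ 2 ≤ N * (4 / L : ℝ) ^ (j + 1) :=
        hTN.trans (by gcongr)
      have e3 : (T : ℝ) ^ 2 * (2 * (m * (((N : ℝ) * m) ^ j * B₀))) =
          (4 * (T : ℝ) ^ 2) * ((1 / 2) * (m * (((N : ℝ) * m) ^ j * B₀))) := by ring
      have e4 : (2 / L : ℝ) * (m * (N * (((N : ℝ) * m) ^ j * B₀ * (4 / L : ℝ) ^ j))) =
          (N * (4 / L : ℝ) ^ (j + 1)) * ((1 / 2) * (m * (((N : ℝ) * m) ^ j * B₀))) := by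
        rw [show (2 / L : ℝ) = (1 / 2) * (4 / L) by ring]
        generalize (4 / L : ℝ) = x
        ring
      have e5 : ((N : ℝ) * m) ^ (j + 1) * B₀ * (4 / L : ℝ) ^ (j + 1) =
          (N * (4 / L : ℝ) ^ (j + 1)) * ((1 / 2) * (m * (((N : ℝ) * m) ^ j * B₀))) +
          (N * (4 / L : ℝ) ^ (j + 1)) * ((1 / 2) * (m * (((N : ℝ) * m) ^ j * B₀))) := by
        ring
      rw [e3, e4, e5]
      gcongr

/-! ### numerics -/

lemma num_P {L : ℕ} (hL : 200 ≤ L) : (L * (120 * L ^ 2) + 2) ^ 2 ≤ L ^ 8 := by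
  have h1 : L * (120 * L ^ 2) + 2 ≤ L ^ 4 := by
    have : 200 * L ^ 3 ≤ L * L ^ 3 := Nat.mul_le_mul_right _ hL
    have h3 : 1 ≤ L ^ 3 := Nat.one_le_pow _ _ (by omega)
    calc L * (120 * L ^ 2) + 2 = 120 * L ^ 3 + 2 := by ring
      _ ≤ 200 * L ^ 3 := by omega
      _ ≤ L * L ^ 3 := this
      _ = L ^ 4 := by ring
  calc (L * (120 * L ^ 2) + 2) ^ 2 ≤ (L ^ 4) ^ 2 := Nat.pow_le_pow_left h1 2
    _ = L ^ 8 := by ring

lemma num_N {L : ℕ} : (L ^ (60 * L)) ^ 2 ≤ 2 ^ (120 * L ^ 2) := by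
  have h1 : L ≤ 2 ^ L := Nat.lt_two_pow_self.le
  calc (L ^ (60 * L)) ^ 2 = L ^ (120 * L) := by rw [← pow_mul]; ring_nf
    _ ≤ (2 ^ L) ^ (120 * L) := Nat.pow_le_pow_left h1 _
    _ = 2 ^ (120 * L ^ 2) := by rw [← pow_mul]; ring_nf

lemma num_r {L : ℕ} (hL : 200 ≤ L) :
    (120 * L ^ 2) ^ L * (3 * (L ^ 8) ^ L) ≤ 2 ^ (20 * L ^ 2) := by
  have h1 : L ≤ 2 ^ L := Nat.lt_two_pow_self.le
  have h2 : 120 * L ^ 2 ≤ L ^ 3 := by nlinarith [sq_nonneg L]
  have h3 : 3 ≤ L ^ L := by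
    calc 3 ≤ L := by omega
      _ = L ^ 1 := (pow_one L).symm
      _ ≤ L ^ L := Nat.pow_le_pow_right (by omega) (by omega)
  calc (120 * L ^ 2) ^ L * (3 * (L ^ 8) ^ L) ≤ (L ^ 3) ^ L * (L ^ L * (L ^ 8) ^ L) := by gcongr
    _ = L ^ (12 * L) := by
      rw [← pow_mul, ← pow_mul, ← pow_add, ← pow_add]
      congr 1
      ring
    _ ≤ (2 ^ L) ^ (12 * L) := Nat.pow_le_pow_left h1 _
    _ = 2 ^ (12 * L ^ 2) := by rw [← pow_mul]; ring_nf
    _ ≤ 2 ^ (20 * L ^ 2) := Nat.pow_le_pow_right (by norm_num) (by omega)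

lemma num_B {L : ℕ} (hL : 300 ≤ L) : 6 * (2 * (20 * L ^ 2) + 4) ≤ L ^ 3 := by
  have : 300 * L ^ 2 ≤ L * L ^ 2 := Nat.mul_le_mul_right _ hL
  have h3 : 1 ≤ L ^ 2 := Nat.one_le_pow _ _ (by omega)
  calc 6 * (2 * (20 * L ^ 2) + 4) ≤ 300 * L ^ 2 := by omega
    _ ≤ L * L ^ 2 := this
    _ = L ^ 3 := by ring

lemma num_T {L : ℕ} (hL : 200 ≤ L) :
    4 * ((3 * (L ^ 8) ^ (2 * L) : ℕ) : ℝ) ^ 2 ≤ ((L ^ (60 * L) : ℕ) : ℝ) * (4 / L : ℝ) ^ L := by
  have hLr : (200 : ℝ) ≤ L := by exact_mod_cast hL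
  have hLpos : (0 : ℝ) < L := by linarith
  have h1 : (1 : ℝ) / L ≤ 4 / L := by gcongr; norm_num
  have h2 : (1 / L : ℝ) ^ L ≤ (4 / L : ℝ) ^ L := by gcongr
  have h3 : (36 : ℝ) ≤ (L : ℝ) ^ L := by
    calc (36 : ℝ) ≤ (L : ℝ) ^ 1 := by rw [pow_one]; linarith
      _ ≤ (L : ℝ) ^ L := pow_le_pow_right₀ (by linarith) (by omega)
  push_cast
  calc 4 * (3 * ((L : ℝ) ^ 8) ^ (2 * L)) ^ 2 = 36 * (L : ℝ) ^ (32 * L) := by
        rw [mul_pow, ← pow_mul, ← pow_mul]
        ring_nf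
    _ ≤ (L : ℝ) ^ L * (L : ℝ) ^ (32 * L) := by gcongr
    _ = (L : ℝ) ^ (33 * L) := by rw [← pow_add]; congr 1; ring
    _ ≤ (L : ℝ) ^ (59 * L) := pow_le_pow_right₀ (by linarith) (by omega)
    _ = (L : ℝ) ^ (60 * L) * (1 / L : ℝ) ^ L := by
        rw [div_pow, one_pow, mul_one_div, eq_div_iff (by positivity), ← pow_add]
        congr 1
        ring
    _ ≤ (L : ℝ) ^ (60 * L) * (4 / L : ℝ) ^ L := by gcongr

lemma num_len {L : ℕ} (hL : 300 ≤ L) :
    (L ^ (60 * L) * (120 * L ^ 2)) ^ L * (6 * (2 * (20 * L ^ 2) + 4)) ≤ L ^ (62 * L ^ 2) := by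
  have h2 : 120 * L ^ 2 ≤ L ^ 3 := by nlinarith [sq_nonneg L]
  calc (L ^ (60 * L) * (120 * L ^ 2)) ^ L * (6 * (2 * (20 * L ^ 2) + 4))
      ≤ (L ^ (60 * L) * L ^ 3) ^ L * L ^ 3 := by
        gcongr
        exact num_B hL
    _ = L ^ (60 * L ^ 2 + 3 * L + 3) := by
        rw [← pow_add, ← pow_mul, ← pow_add]
        congr 1
        ring
    _ ≤ L ^ (62 * L ^ 2) := by
        refine Nat.pow_le_pow_right (by omega) ?_
        nlinarith

end T8

open T8 in
theorem topGadget (h1 : BaseCode) (h2 : PrimeBound) (h3 : PoinStep)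
    (h4 : SepStep) (h5 : SelfStep) (h0 : EDBasic) : TopGadget := by
  obtain ⟨k₀, hk₀⟩ := h2
  refine ⟨300 + k₀, fun L hL => ?_⟩
  have hL3 : 300 ≤ L := by omega
  obtain ⟨code, hlen, hfar⟩ := h1 (20 * L ^ 2)
  set m : ℕ := 120 * L ^ 2 with hm
  set N : ℕ := L ^ (60 * L) with hN
  set P : ℕ := L ^ 8 with hP
  set B₀ : ℕ := 6 * (2 * (20 * L ^ 2) + 4) with hB₀
  have hLm : L ≤ m := by rw [hm]; nlinarith
  have hP1 : 1 ≤ P := Nat.one_le_pow _ _ (by omega)
  have hpr : ∀ l < L, ∀ a : Fin m, pr l a ≤ P := by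
    intro l hl a
    refine (pr_le hk₀ ?_ hl a).trans (num_P (by omega))
    nlinarith
  have hQ : ∀ π : List (Fin m), π.length ≤ L → q π ≤ 3 * P ^ L := by
    intro π hπ
    refine (q_le hpr π hπ).trans ?_
    exact Nat.mul_le_mul_left _ (Nat.pow_le_pow_right hP1 hπ)
  have hN24 : 24 ≤ N := by
    calc 24 ≤ L ^ 1 := by rw [pow_one]; omega
      _ ≤ N := Nat.pow_le_pow_right (by omega) (by omega)
  have hB0pos : 0 < B₀ := by omega
  have base : Good m N (3 * P ^ L) L code 0 B₀ B₀ 1 :=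
    good_zero h0 (by omega) hQ (M := 2 ^ (20 * L ^ 2)) (num_r (by omega)) hlen hfar
  have all := good_all h3 h4 h5 hN24 (by omega) num_N hpr hP1 le_rfl (by omega) hB0pos
    (num_T (by omega)) base L le_rfl
  have hLr : (300 : ℝ) ≤ L := by exact_mod_cast hL3
  have hLpos : (0 : ℝ) < L := by linarith
  have hNpos : (0 : ℝ) < N := by
    have : (24 : ℝ) ≤ N := by exact_mod_cast hN24
    linarith
  have hmpos : (0 : ℝ) < m := by
    have : (L : ℝ) ≤ m := by exact_mod_cast hLm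
    linarith
  have hBpos : (0 : ℝ) < B₀ := by exact_mod_cast hB0pos
  refine ⟨gad N (3 * P ^ L) code L ([] : List (Fin m)), (N * m) ^ L * B₀,
    ((N : ℝ) * m) ^ L * B₀ * (4 / L : ℝ) ^ L, ((N : ℝ) * m / 64) ^ L, all.len _, ?_,
    all.poin _ (by simp), ?_, by positivity, by positivity, ?_⟩
  · exact_mod_cast num_len hL3
  · exact all.self [] (by simp)
  · have hBL : (B₀ : ℝ) ≤ (L : ℝ) ^ 3 := by exact_mod_cast num_B hL3
    have e : ((N : ℝ) * m / 64) ^ L / (((N : ℝ) * m) ^ L * B₀ * (4 / L : ℝ) ^ L) =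
        ((L : ℝ) / 256) ^ L / B₀ := by
      rw [div_pow, div_pow, div_pow, show (256 : ℝ) = 64 * 4 by norm_num, mul_pow 64 4]
      field_simp
    rw [e]
    gcongr

end Crest.Agent.H7
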