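import Crest.Agent.H7.Defs

set_option autoImplicit false

namespace Crest.Agent.H7

open Crest.GeometryTopology.EditDistance
open scoped BigOperators

theorem distBound (h1 : EDBasic) (h3 : NegL1) : DistBound := by
  intro G B b k hlen hpoin hself hb hk f s D hs hf
  -- the separation of phases `0` and `1`
  have hfar : ∀ e : G.E, k ≤ (editDist (G.V e 0) (G.V e 1) : ℝ) := by
    intro e
    refine hself e 0 1 (by decide) (G.V e 0) (G.V e 1) (List.infix_refl _) (List.infix_refl _) ?_
    rw [hlen e 0]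
    omega
  have hne : ∀ e : G.E, G.V e 0 ≠ G.V e 1 := by
    intro e h
    have := hfar e
    rw [h, h1.self] at this
    simp at this
    linarith
  obtain ⟨e₀⟩ := G.ne
  have hD : 0 < D := by
    have h2 := hf (G.V e₀ 0) (G.V e₀ 1) (hlen _ _) (hlen _ _) (hne e₀)
    have h4 : 0 < s * (editDist (G.V e₀ 0) (G.V e₀ 1) : ℝ) :=
      mul_pos hs (hk.trans_le (hfar e₀))
    have h5 : 0 < D * (s * (editDist (G.V e₀ 0) (G.V e₀ 1) : ℝ)) := by
      rw [← mul_assoc]
      linarith [h2.1, h2.2]
    exact (pos_iff_pos_of_mul_pos h5).2 h4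
  have hneg : Neg (fun w w' : ℤ → List Bool => ‖f (w 0) - f (w' 0)‖) := by
    intro ι _ c hc x
    exact h3 (List Bool) f ι c hc fun i => x i 0
  have hlip : Lip B (D * s) (fun w w' : ℤ → List Bool => ‖f (w 0) - f (w' 0)‖) := by
    intro w w' hw hw' n hn
    by_cases h : w 0 = w' 0
    · simp only [h, sub_self, norm_zero]
      positivity
    · refine (hf _ _ (hw 0) (hw' 0) h).2.trans ?_
      have : (editDist (w 0) (w' 0) : ℝ) ≤ n := by exact_mod_cast hn 0
      gcongr
  have key := hpoin (D * s) _ (by positivity) hneg hlip 1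
  have hlow : (Fintype.card G.E : ℝ) * (s * k) ≤
      ∑ e, ‖f (G.V e 0) - f (G.V e (1 + 0))‖ := by
    have : ∑ e : G.E, s * k ≤ ∑ e, ‖f (G.V e 0) - f (G.V e (1 + 0))‖ := by
      refine Finset.sum_le_sum fun e _ => ?_
      refine le_trans ?_ (hf (G.V e 0) (G.V e (1 + 0)) (hlen _ _) (hlen _ _) (by
        simpa using hne e)).1
      have := hfar e
      rw [add_zero]
      gcongr
    simpa using this
  have hcard : (0 : ℝ) < Fintype.card G.E := by exact_mod_cast Fintype.card_pos
  have h6 : (Fintype.card G.E : ℝ) * (s * k) ≤ (Fintype.card G.E : ℝ) * (D * s * b) :=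
    hlow.trans key
  have h7 : s * k ≤ D * s * b := le_of_mul_le_mul_left h6 hcard
  rw [div_le_iff₀ hb]
  have h8 : s * k ≤ s * (D * b) := by linarith
  exact le_of_mul_le_mul_left h8 hs

end Crest.Agent.H7
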